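import Vale.Agent.P354YH.Seq

/-!
The weighted functionals and the weighted near estimate.
-/

open Finset Filter

noncomputable section

namespace Vale.Agent.P354YH

/-- The maximum over j ≤ k. -/
def mx (k : ℕ) (f : ℕ → ℝ) : ℝ := (range (k + 1)).sup' ⟨0, by simp⟩ f

theorem le_mx (f : ℕ → ℝ) {j k : ℕ} (h : j ≤ k) : f j ≤ mx k f :=
  le_sup' f (mem_range.mpr (by omega))

theorem mx_le {f : ℕ → ℝ} {k : ℕ} {a : ℝ} (h : ∀ j ≤ k, f j ≤ a) : mx k f ≤ a :=
  sup'_le _ f fun j hj => h j (by have := mem_range.mp hj; omega)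

theorem lv_shift {q : ℝ} (q0 : 0 ≤ q) {f : ℕ → ℝ} (f0 : ∀ j, 0 ≤ f j) (k : ℕ) {i : ℕ} (hi : i ≤ 2) :
    ∑ j ∈ range (k + 1), lv q j * (if j + i ≤ k then f (j + i) else 0) ≤
      3 * ∑ j ∈ range (k + 1), lv q j * f j := by
  obtain ⟨F, hF⟩ : ∃ F : ℕ → ℝ, F = fun j => lv q j * (if j ≤ k then f j else 0) := ⟨_, rfl⟩
  have z0 : ∀ j, 0 ≤ (if j ≤ k then f j else 0) := fun j => by
    split_ifs
    exacts [f0 j, le_rfl]
  have a1 := sum_range_add F i (k + 1)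
  have a2 := sum_range_add F (k + 1) i
  have a3 : ∑ x ∈ range i, F (k + 1 + x) = 0 :=
    sum_eq_zero fun x _ => by rw [hF]; simp only []; rw [if_neg (by omega), mul_zero]
  have a4 : ∑ x ∈ range (k + 1), F x = ∑ j ∈ range (k + 1), lv q j * f j :=
    sum_congr rfl fun x hx => by
      rw [hF]; simp only []; rw [if_pos (by have := mem_range.mp hx; omega)]
  have a5 : 0 ≤ ∑ x ∈ range i, F x := sum_nonneg fun x _ => hF ▸ mul_nonneg (lv_nn q x) (z0 x)
  have a6 : ∑ j ∈ range (k + 1), lv q j * (if j + i ≤ k then f (j + i) else 0) ≤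
      3 * ∑ x ∈ range (k + 1), F (i + x) := by
    rw [mul_sum]
    refine sum_le_sum fun j _ => ?_
    rw [hF, add_comm i j, ← mul_assoc]
    refine mul_le_mul_of_nonneg_right ?_ (z0 _)
    unfold lv
    split_ifs
    · simp
    have b1 := wt_mono q0 (Nat.le_add_right j i)
    rw [wt_one q j, wt_one q (j + i)] at b1
    have b2 : (i : ℝ) ≤ 2 := by exact_mod_cast hi
    have b3 := one_le_b j
    have b4 := mul_le_mul_of_nonneg_right (show 1 + ((j + i : ℕ) : ℝ) ≤ (1 + j) * 3 by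
      push_cast; linarith) (wt_pos (q - 1) (j + i)).le
    exact le_of_mul_le_mul_left (a := (1 + j : ℝ)) (by linarith) (by linarith)
  rw [add_comm i (k + 1)] at a1
  linarith

namespace Sys

variable {S : Type} (T : Sys S)

/-- The weighted energy plus bulk, the weighted term of low order, and the errors. -/
def Ph (q : ℝ) (n : ℕ) (R : ℝ) (σ : S) (k : ℕ) : ℝ :=
  mx k (fun j => wt q j * T.y n R σ j) + sm q k (T.B n R σ)
def Io (q : ℝ) (R : ℝ) (σ : S) (k : ℕ) : ℝ := sm q k (T.i R σ)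
def De (q : ℝ) (n : ℕ) (R : ℝ) (σ : S) (k : ℕ) : ℝ :=
  T.D σ + ∑ j ∈ range (k + 1), lv q j * T.y n R σ j + sm q k (T.hy n R σ)

/-- f is bounded by θ a + C g. -/
def Lt (n : ℕ) (f : S → ℕ → ℝ) (θ : ℝ) (a g : S → ℕ → ℝ) : Prop :=
  ∃ C, 0 ≤ C ∧ ∀ᶠ σ in T.F n, ∀ k ≤ T.K σ, f σ k ≤ θ * a σ k + C * g σ k

/-- f is bounded by C g. -/
def Le (n : ℕ) (f g : S → ℕ → ℝ) : Prop :=
  ∃ C, 0 ≤ C ∧ ∀ᶠ σ in T.F n, ∀ k ≤ T.K σ, f σ k ≤ C * g σ k

variable {T} {q R R' : ℝ} {n n' : ℕ}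

theorem Form.ev (h : T.Form) (hn : n ≤ n') {p : S → Prop} (e : ∀ᶠ σ in T.F n, p σ) :
    ∀ᶠ σ in T.F n', p σ := e.filter_mono (h.anti hn)

theorem Form.Bn (h : T.Form) (n R σ j) : 0 ≤ T.B n R σ j := add_nonneg (h.y0 ..) (h.x0 ..)

theorem Form.Bm (h : T.Form) (hn : n ≤ n') (hR : R ≤ R') (σ j) : T.B n R σ j ≤ T.B n' R' σ j :=
  add_le_add (h.ym (by omega) hR σ j) (h.xm hn hR σ j)

theorem Form.yB (h : T.Form) (hn : n < n') (hR : R ≤ R') (σ j) : T.y n R σ j ≤ T.B n' R' σ j :=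
  le_add_of_le_of_nonneg (h.ym (by omega) hR σ j) (h.x0 ..)

theorem Form.hn (h : T.Form) (n R σ j) : 0 ≤ T.hy n R σ j := mul_nonneg (h.h0 ..) (h.y0 ..)

theorem Form.hm (h : T.Form) (hn : n ≤ n') (hR : R ≤ R') (σ j) : T.hy n R σ j ≤ T.hy n' R' σ j :=
  mul_le_mul_of_nonneg_left (h.ym hn hR σ j) (h.h0 ..)

theorem Form.lom (h : T.Form) (n : ℕ) (hR : R ≤ R') (σ j) : T.lo n R σ j ≤ T.lo n R' σ j := by
  unfold lo; split_ifs
  · exact h.im hR σ j
  · exact h.Bm le_rfl hR σ j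

theorem Form.lol (h : T.Form) (n : ℕ) (hR : R ≤ R') (σ j) : T.lo' n R σ j ≤ T.lo n R' σ j := by
  unfold lo lo'; split_ifs
  · exact h.i0 ..
  · exact h.Bm le_rfl hR σ j

theorem Form.lon (h : T.Form) (n R σ j) : 0 ≤ T.lo n R σ j := by
  unfold lo; split_ifs
  · exact h.i0 ..
  · exact h.Bn ..

theorem sm_k (q : ℝ) {f : ℕ → ℝ} (hf : ∀ j, 0 ≤ f j) {k k' : ℕ} (hk : k ≤ k') :
    sm q k f ≤ sm q k' f :=
  P354XL.sub_le (range_mono (by omega)) fun j => mul_nonneg (wt_pos q j).le (hf j)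

theorem Form.BP (h : T.Form) (q n R σ k) : sm q k (T.B n R σ) ≤ T.Ph q n R σ k :=
  le_add_of_nonneg_left ((mul_nonneg (wt_pos _ _).le (h.y0 n R σ k)).trans
    (le_mx (fun j => wt q j * T.y n R σ j) le_rfl))

theorem Form.yP (h : T.Form) (q n R σ k) : wt q k * T.y n R σ k ≤ T.Ph q n R σ k :=
  le_add_of_le_of_nonneg (le_mx (fun j => wt q j * T.y n R σ j) le_rfl) (sm_nn _ _ (h.Bn n R σ))

theorem Form.Pn (h : T.Form) (q n R σ k) : 0 ≤ T.Ph q n R σ k :=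
  (sm_nn _ _ (h.Bn n R σ)).trans (h.BP ..)

theorem Form.Pm' (h : T.Form) (q : ℝ) (hn : n ≤ n') (hR : R ≤ R') (σ) {k k' : ℕ} (hk : k ≤ k') :
    T.Ph q n R σ k ≤ T.Ph q n' R' σ k' :=
  add_le_add (mx_le fun j hj => (mul_le_mul_of_nonneg_left (h.ym hn hR σ j) (wt_pos _ _).le).trans
    (le_mx (fun j => wt q j * T.y n' R' σ j) (hj.trans hk)))
    ((sm_mono _ _ (h.Bm hn hR σ)).trans (sm_k q (h.Bn n' R' σ) hk))

theorem Form.Pm (h : T.Form) (q : ℝ) (hn : n ≤ n') (hR : R ≤ R') (σ k) :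
    T.Ph q n R σ k ≤ T.Ph q n' R' σ k := h.Pm' q hn hR σ le_rfl

theorem Form.In (h : T.Form) (q R σ k) : 0 ≤ T.Io q R σ k := sm_nn _ _ (h.i0 R σ)

theorem Form.Ln (h : T.Form) (q n R σ k) : 0 ≤ ∑ j ∈ range (k + 1), lv q j * T.y n R σ j :=
  sum_nonneg fun j _ => mul_nonneg (lv_nn _ j) (h.y0 ..)

theorem Form.DD (h : T.Form) (q n R σ k) : T.D σ ≤ T.De q n R σ k := by
  linarith [h.Ln q n R σ k, sm_nn q k (h.hn n R σ), show T.De q n R σ k = _ + _ + _ from rfl]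

theorem Form.Dn (h : T.Form) (q n R σ k) : 0 ≤ T.De q n R σ k := (h.D0 σ).trans (h.DD ..)

theorem Form.Dm (h : T.Form) (q : ℝ) (hn : n ≤ n') (hR : R ≤ R') (σ) {k k' : ℕ} (hk : k ≤ k') :
    T.De q n R σ k ≤ T.De q n' R' σ k' :=
  add_le_add (add_le_add le_rfl ((sum_le_sum fun j _ =>
    mul_le_mul_of_nonneg_left (h.ym hn hR σ j) (lv_nn q j)).trans
    (P354XL.sub_le (range_mono (by omega)) fun j => mul_nonneg (lv_nn _ j) (h.y0 ..))))
    ((sm_mono _ _ (h.hm hn hR σ)).trans (sm_k q (h.hn n' R' σ) hk))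

theorem Form.gP (h : T.Form) (q n R σ k) :
    sm q k (fun j => T.B n R σ j + T.y T.g R σ j) ≤ 2 * T.Ph q (max n (T.g + 1)) R σ k := by
  rw [sm_add]
  linarith [sm_mono q k (h.Bm (le_max_left n (T.g + 1)) (le_refl R) σ),
    sm_mono q k (h.yB (show T.g < max n (T.g + 1) by omega) (le_refl R) σ),
    h.BP q (max n (T.g + 1)) R σ k]

/-- The extension to all radii. -/
theorem ext (h : T.Is) (qQ : q ≤ T.Q) (hn : T.n0 ≤ n) : ∃ R0, ∀ R, ∃ C, 0 ≤ C ∧ ∀ᶠ σ in T.F n,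
    ∀ k ≤ T.K σ, T.Ph q n R σ k ≤ C * (T.Ph q (max n (T.g + 1)) R0 σ k + T.D σ) := by
  have f := h.toForm
  obtain ⟨R1, hX⟩ := h.fx n hn
  refine ⟨max R1 T.rb, fun R => ?_⟩
  obtain ⟨C, c, e⟩ := hX R
  refine ⟨1 + 6 * C, by positivity, e.mono fun σ e k hk => ?_⟩
  have r1 := le_max_left R1 T.rb
  have r2 := le_max_right R1 T.rb
  generalize max R1 T.rb = Rb at *
  have a3 := down (θ := 0) (b := T.x n R σ) qQ fun m hm => by simpa using e m (hm.trans hk)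
  have a4 := (f.gP q n R1 σ k).trans
    (mul_le_mul_of_nonneg_left (f.Pm q (le_refl _) r1 σ k) zero_le_two)
  have a5 : mx k (fun j => wt q j * T.y n R σ j) ≤
      mx k (fun j => wt q j * T.y n Rb σ j) + sm q k (T.x n R σ) := mx_le fun j hj => by
    linarith [mul_le_mul_of_nonneg_left (f.split n R Rb r2 σ j) (wt_pos q j).le,
      le_sm q (f.x0 n R σ) hj, le_mx (fun j => wt q j * T.y n Rb σ j) hj]
  have a7 : sm q k (T.B n R σ) ≤ sm q k (T.B n Rb σ) + 2 * sm q k (T.x n R σ) := by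
    rw [← sm_mul, ← sm_add]
    refine sm_mono _ _ fun j => ?_
    linarith [f.split (n - 1) R Rb r2 σ j, f.xm (Nat.sub_le n 1) (le_refl R) σ j,
      f.x0 n Rb σ j, show T.B n R σ j = _ + _ from rfl, show T.B n Rb σ j = _ + _ from rfl]
  have a8 := mul_le_mul_of_nonneg_left a4 c
  have a9 := f.Pm q (le_max_left n (T.g + 1)) (le_refl Rb) σ k
  have b1 : T.Ph q n R σ k ≤ T.Ph q n Rb σ k + 3 * sm q k (T.x n R σ) := by
    unfold Ph; linarith
  linarith [f.D0 σ, mul_nonneg c (f.D0 σ)]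

/-- The near estimate with the layer absorbed. -/
theorem near1 (h : T.Is) (q0 : 0 ≤ q) (qQ : q ≤ T.Q) (hn : T.n0 ≤ n) : ∃ R0, ∀ R, ∀ θ > 0, ∃ R'',
    T.Lt n (T.Ph q n R) θ (T.Ph q (max n (T.g + 1)) R0)
      fun σ k => T.De q n R'' σ k + sm q k (T.lo n R'' σ) := by
  have f := h.toForm
  have q3 := qQ.trans f.Q3
  obtain ⟨Ra, hF⟩ := h.fl n hn
  obtain ⟨Rb, hX⟩ := ext h qQ hn
  refine ⟨max Ra Rb, fun R θ θ0 => ?_⟩
  obtain ⟨C0, c0, hN⟩ := h.near n hn R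
  obtain ⟨R2, hF⟩ := hF (θ / (8 * (C0 + 1))) (by positivity)
  obtain ⟨R', r2, R1, hN⟩ := hN R2
  obtain ⟨R3, C3, c3, e3⟩ := hF R' r2
  obtain ⟨Cx, cx, ex⟩ := hX R1
  obtain ⟨ε, ε0, ε1⟩ : ∃ ε : ℝ, 0 < ε ∧ 256 * ε * Cx ≤ θ / 4 := by
    refine ⟨θ / (1024 * (Cx + 1)), by positivity, ?_⟩
    rw [show 256 * (θ / (1024 * (Cx + 1))) * Cx = θ / 4 * Cx / (Cx + 1) by field_simp; ring,
      div_le_iff₀ (by positivity)]
    nlinarith
  obtain ⟨R4, C1, c1, e1⟩ := hN ε ε0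
  obtain ⟨R5, h5⟩ := Finset.exists_le {R, R3, R4}
  simp only [mem_insert, mem_singleton, forall_eq_or_imp, forall_eq] at h5
  obtain ⟨Ci, ci, ei⟩ := h.init n R5
  refine ⟨R5, 2 * ((C1 + 3) * (3 * Ci + 27) + C0 * C3 + θ / 4), by positivity, ?_⟩
  filter_upwards [e1, e3, ei, ex] with σ e1 e3 ei ex
  have key : ∀ k ≤ T.K σ, wt q k * T.y n R σ k + sm q k (T.B n R σ) ≤
      θ / 2 * T.Ph q (max n (T.g + 1)) (max Ra Rb) σ k +
      ((C1 + 3) * (3 * Ci + 27) + C0 * C3 + θ / 4) *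
        (T.De q n R5 σ k + sm q k (T.lo n R5 σ)) := by
    intro k hk
    obtain ⟨z, hz⟩ : ∃ z : ℕ → ℝ, z = fun j => if j ≤ k then T.y n R5 σ j else 0 := ⟨_, rfl⟩
    have z0 : ∀ j, 0 ≤ z j := fun j => by
      rw [hz]; simp only []; split_ifs
      exacts [f.y0 .., le_rfl]
    have z1 : ∀ j ≤ k, z j = T.y n R5 σ j := fun j hj => by rw [hz]; exact if_pos hj
    have Y0 : 0 ≤ ∑ j ∈ Icc (k - 3) k, T.y n R1 σ j := sum_nonneg fun j _ => f.y0 ..
    have a1 := up (k := k) q0 q3 (Y := T.y n R σ k - ε * ∑ j ∈ Icc (k - 3) k, T.y n R1 σ j)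
      (C := C1 + 3) (C0 := 1) (b := T.B n R σ) (e := fun j => z j + z (j + 1) + z (j + 2))
      (r := fun j => T.lo n R5 σ j + T.hy n R5 σ j)
      (g := fun j => C0 * T.Gd n R' σ j + ε * T.B n R1 σ j) (by linarith)
      (fun j => add_nonneg (add_nonneg (z0 _) (z0 _)) (z0 _)) fun m hm => by
      have b1 : 0 ≤ ∑ j ∈ Icc m k, (T.lo n R5 σ j + T.hy n R5 σ j) :=
        sum_nonneg fun j _ => add_nonneg (f.lon ..) (f.hn ..)
      have b0 := add_nonneg (add_nonneg (add_nonneg (z0 m) (z0 (m + 1))) (z0 (m + 2))) b1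
      rcases le_or_gt (m + 2) k with w | w
      · have b2 := e1 m k w hk
        have b3 : ∑ j ∈ Icc m k, (T.lo n R4 σ j + T.hy n R4 σ j) ≤
            ∑ j ∈ Icc m k, (T.lo n R5 σ j + T.hy n R5 σ j) :=
          sum_le_sum fun j _ => add_le_add (f.lom n h5.2.2 σ j) (f.hm le_rfl h5.2.2 σ j)
        have b4 : ∑ j ∈ Icc m (m + 2), T.y n R4 σ j ≤ z m + z (m + 1) + z (m + 2) := by
          rw [sum_Icc_succ_top (by omega), sum_Icc_succ_top (by omega), Icc_self, sum_singleton,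
            z1 _ hm, z1 _ (by omega), z1 _ w]
          exact add_le_add (add_le_add (f.ym le_rfl h5.2.2 ..) (f.ym le_rfl h5.2.2 ..))
            (f.ym le_rfl h5.2.2 ..)
        have b5 := mul_le_mul_of_nonneg_left (add_le_add b4 b3) c1
        rw [sum_add_distrib (f := fun j => C0 * T.Gd n R' σ j), ← mul_sum, ← mul_sum]
        linarith
      · have b2 : 0 ≤ ∑ j ∈ Icc m k, (C0 * T.Gd n R' σ j + ε * T.B n R1 σ j) :=
          sum_nonneg fun j _ => add_nonneg (mul_nonneg c0 (f.G0 ..)) (mul_nonneg ε0.le (f.Bn ..))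
        have b3 : ∀ j ≤ k, T.y n R σ j ≤ z j ∧ T.B n R σ j ≤ 2 * z j := fun j hj => by
          have := f.ym (le_refl n) h5.1 σ j
          rw [z1 j hj, B]
          exact ⟨this, by linarith [f.xy n R σ j, f.ym (Nat.sub_le n 1) (le_refl R) σ j]⟩
        have b4 : T.y n R σ k + ∑ j ∈ Icc m k, T.B n R σ j ≤ 3 * (z m + z (m + 1) + z (m + 2)) := by
          rcases (show k = m ∨ k = m + 1 by omega) with rfl | rfl
          · rw [Icc_self, sum_singleton]
            linarith [b3 k le_rfl, z0 (k + 1), z0 (k + 2)]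
          · rw [sum_Icc_succ_top (by omega), Icc_self, sum_singleton]
            linarith [b3 m hm, b3 (m + 1) le_rfl, z0 m, z0 (m + 2)]
        linarith [mul_nonneg c1 b0, mul_nonneg ε0.le Y0]
    have a2 := down qQ fun m hm => e3 m (hm.trans hk)
    have a3 := (f.gP q n Ra σ k).trans
      (mul_le_mul_of_nonneg_left (f.Pm q (le_refl _) (le_max_left Ra Rb) σ k) zero_le_two)
    have a4 : wt q k * ∑ j ∈ Icc (k - 3) k, T.y n R1 σ j ≤
        256 * mx k fun j => wt q j * T.y n R1 σ j := by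
      rw [mul_sum]
      refine (sum_le_card_nsmul _ _ (64 * mx k fun j => wt q j * T.y n R1 σ j)
        fun j hj => ?_).trans ?_
      · rw [mem_Icc] at hj
        have b1 : 1 + k ≤ 4 * (1 + j) := by omega
        have b2 := rpow_cmp (x := 1 + k) (y := 1 + j) (c := 4) q0 q3 (by positivity)
          (by positivity) (by norm_num) (by exact_mod_cast b1)
        have b3 := mul_le_mul_of_nonneg_right b2 (f.y0 n R1 σ j)
        have b4 := le_mx (fun j => wt q j * T.y n R1 σ j) hj.2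
        unfold wt at *
        linarith
      · have b1 : ((Icc (k - 3) k).card : ℝ) ≤ 4 := by
          rw [Nat.card_Icc]; exact_mod_cast (by omega)
        have b2 := (mul_nonneg (wt_pos q k).le (f.y0 n R1 σ k)).trans
          (le_mx (fun j => wt q j * T.y n R1 σ j) le_rfl)
        rw [nsmul_eq_mul]
        nlinarith
    have a5 : ∀ i ≤ 2, z i ≤ Ci * T.D σ ∧ ∑ j ∈ range (k + 1), lv q j * z (j + i) ≤
        3 * ∑ j ∈ range (k + 1), lv q j * T.y n R5 σ j := fun i hi => by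
      rw [hz]
      refine ⟨?_, lv_shift q0 (f.y0 n R5 σ) k hi⟩
      simp only []; split_ifs with w
      exacts [ei i hi (w.trans hk), mul_nonneg ci (f.D0 σ)]
    simp only [mul_add (lv q _), sum_add_distrib, sm_add, sm_mul] at a1
    rw [sm_add _ _ (T.lo' n R3 σ)] at a2
    have b2 := f.Dm q (le_refl n) h5.2.1 σ (le_refl k)
    have b4 := sm_mono q k (f.lol n h5.2.1 σ)
    have b5 := f.DD q n R5 σ k
    have b6 := sm_nn q k (f.lon n R5 σ)
    have b7 := sm_nn q k (f.hn n R5 σ)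
    have b8 := f.Ln q n R3 σ k
    have b9 := f.D0 σ
    have b10 := mul_le_mul_of_nonneg_left (b5.trans (le_add_of_nonneg_right b6)) ci
    have b1 : T.De q n R5 σ k = _ + _ + _ := rfl
    rw [De] at b2
    obtain ⟨u0, v0⟩ := a5 0 (by omega)
    obtain ⟨u1, v1⟩ := a5 1 (by omega)
    obtain ⟨u2, v2⟩ := a5 2 (by omega)
    simp only [add_zero] at v0
    have d1 := mul_le_mul_of_nonneg_left (show z 0 + z (0 + 1) + z (0 + 2) +
      3 * (∑ j ∈ range (k + 1), lv q j * z j + ∑ j ∈ range (k + 1), lv q j * z (j + 1) +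
        ∑ j ∈ range (k + 1), lv q j * z (j + 2)) + (sm q k (T.lo n R5 σ) + sm q k (T.hy n R5 σ)) ≤
      (3 * Ci + 27) * (T.De q n R5 σ k + sm q k (T.lo n R5 σ)) by
        simp only [zero_add]; linarith) (show 0 ≤ C1 + 3 by linarith)
    have d2 := mul_le_mul_of_nonneg_left (show T.D σ + (sm q k (T.lo' n R3 σ) +
      sm q k (T.hy n R3 σ)) ≤ T.De q n R5 σ k + sm q k (T.lo n R5 σ) by linarith) c3
    have d3 := mul_le_mul_of_nonneg_left a3 (by positivity : 0 ≤ θ / (8 * (C0 + 1)))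
    have d4 := mul_le_mul_of_nonneg_left (a2.trans (add_le_add d3 d2)) c0
    have d5 : C0 * (θ / (8 * (C0 + 1)) * 2) ≤ θ / 4 := by
      rw [show C0 * (θ / (8 * (C0 + 1)) * 2) = θ / 4 * C0 / (C0 + 1) by field_simp; ring,
        div_le_iff₀ (by positivity)]
      nlinarith
    have P0 := f.Pn q (max n (T.g + 1)) (max Ra Rb) σ k
    have d6 := mul_le_mul_of_nonneg_right d5 P0
    have d7 := mul_le_mul_of_nonneg_left ((ex k hk).trans (mul_le_mul_of_nonneg_left (add_le_add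
      (f.Pm q (le_refl _) (le_max_right Ra Rb) σ k) (b5.trans (le_add_of_nonneg_right b6))) cx))
      (by positivity : 0 ≤ 256 * ε)
    have d8 := mul_le_mul_of_nonneg_right ε1 (add_nonneg P0 (add_nonneg (b9.trans b5) b6))
    have d9 := mul_le_mul_of_nonneg_left a4 ε0.le
    have d10 := mul_nonneg ε0.le (sm_nn q k (f.Bn n R1 σ))
    rw [Ph] at d7
    linarith
  intro k hk
  have a1 := key k hk
  have a2 := mx_le (f := fun j => wt q j * T.y n R σ j) (k := k) fun j hj =>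
    (le_add_of_nonneg_right (sm_nn q j (f.Bn n R σ))).trans ((key j (hj.trans hk)).trans
      (add_le_add (mul_le_mul_of_nonneg_left (f.Pm' q le_rfl le_rfl σ hj) (by positivity))
      (mul_le_mul_of_nonneg_left (add_le_add (f.Dm q le_rfl le_rfl σ hj)
        (sm_k q (f.lon n R5 σ) hj)) (by positivity))))
  have a3 := mul_nonneg (wt_pos q k).le (f.y0 n R σ k)
  rw [Ph]
  linarith

end Sys

end Vale.Agent.P354YH
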