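import Vale.Agent.P354YH.Hi

/-!
The hierarchy closes: the weighted sums of all functionals are bounded by the data.
-/

open Finset Filter

noncomputable section

namespace Vale.Agent.P354YH

namespace Sys

variable {S : Type} {T : Sys S} {q q' R1 : ℝ}

/-- The term of low order is bounded by the errors. -/
theorem low_bd (h : T.Is) (q0 : 0 ≤ q) (qQ : q ≤ T.Q) (hi' : ∀ n R, ∃ N R',
    T.Le N (T.Ph q n R) fun σ k => T.De q N R' σ k + T.Io q R1 σ k) : ∃ N R' C, 0 ≤ C ∧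
    ∀ᶠ σ in T.F N, T.Io q R1 σ (T.K σ) ≤ C * T.De q N R' σ (T.K σ) := by
  have f := h.toForm
  have q3 := qQ.trans f.Q3
  obtain ⟨nu, Ru, Cu, cu, eu⟩ := h.unit R1
  obtain ⟨n1, R2, hL⟩ := h.low R1
  obtain ⟨Na, Ra, Ca, ca, ea⟩ := hi' nu Ru
  obtain ⟨Nb, Rb, Cb, cb, eb⟩ := hi' n1 R2
  obtain ⟨C0, δ, -, δ0, hs⟩ := P354XL.step (C1 := Ca + Cb + 8 * Cu + 2) (by linarith)
  obtain ⟨J, hL⟩ := hL C0 (δ / 12288) (by positivity)
  obtain ⟨nJ, RJ, CJ, cJ, hB⟩ := h.fb J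
  obtain ⟨Nc, Rc, Cc, cc, ec⟩ := hi' nJ RJ
  obtain ⟨μ, μ0, μ1, μ2⟩ : ∃ μ : ℝ, 0 < μ ∧ μ ≤ 1 ∧ μ * (CJ * Cc) ≤ 1 := by
    have := mul_nonneg cJ cc
    refine ⟨1 / (CJ * Cc + 1), by positivity, ?_, ?_⟩
    · rw [div_le_one (by positivity)]; linarith
    · rw [one_div, inv_mul_le_iff₀ (by positivity)]; linarith
  obtain ⟨Rk, n, R3, C2, c2, eL⟩ := hL (δ * μ / 12288) (by positivity)
  obtain ⟨RB, CB, cB, eB⟩ := hB Rk
  obtain ⟨Nd, Rd, Cd, cd, ed⟩ := hi' n R3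
  obtain ⟨Ci, ci, ei⟩ := h.init nu Ru
  obtain ⟨Cj, cj, ej⟩ := h.init n R3
  obtain ⟨C4, hs⟩ := hs (12288 * C2 * (Cd + 1)) (by positivity)
  obtain ⟨N, hN⟩ := Finset.exists_le {nu, Na, Nb, Nc, nJ, n, Nd}
  obtain ⟨R, hR⟩ := Finset.exists_le {Ru, Ra, Rb, Rc, RB, R3, Rd}
  simp only [mem_insert, mem_singleton, forall_eq_or_imp, forall_eq] at hN hR
  obtain ⟨u1, u2, u3, u4, u5, u6, u7⟩ := hN
  obtain ⟨v1, v2, v3, v4, v5, v6, v7⟩ := hR
  obtain ⟨A, hA⟩ : ∃ A, A = Ca + Cb + 3 + CB + Cu + Cu * Ci + Ci + Cj := ⟨_, rfl⟩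
  have cc' := mul_nonneg cu ci
  refine ⟨N, R, max C4 0 * A, by rw [hA]; positivity, ?_⟩
  filter_upwards [f.ev u1 eu, f.ev u2 ea, f.ev u3 eb, f.ev u4 ec, f.ev u5 eB, f.ev u6 eL,
    f.ev u7 ed, f.ev u1 ei, f.ev u6 ej] with σ eu ea eb ec eB eL ed ei ej
  replace ei := ei 0 (by omega) (by omega)
  replace ej := ej 0 (by omega) (by omega)
  obtain ⟨E, hE⟩ : ∃ E, E = T.De q N R σ (T.K σ) := ⟨_, rfl⟩
  have E0 : 0 ≤ E := hE ▸ f.Dn ..
  have DE : T.D σ ≤ E := hE ▸ f.DD ..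
  have hD : ∀ {m r k}, m ≤ N → r ≤ R → k ≤ T.K σ → T.De q m r σ k ≤ E := fun a b c =>
    hE ▸ f.Dm q a b σ c
  have hH : ∀ {m r k}, m ≤ N → r ≤ R → k ≤ T.K σ → T.D σ + sm q k (T.hy m r σ) ≤ E := by
    intro m r k a b c
    linarith [hD a b c, f.Ln q m r σ k, show T.De q m r σ k = _ + _ + _ from rfl]
  have AE : ∀ {c}, c ≤ A → c * E ≤ A * E := fun hc => mul_le_mul_of_nonneg_right hc E0
  have ν0 : 0 < 1 / (Cd + 1) := by positivity
  have ν1 : 1 / (Cd + 1) * Cd ≤ 1 := by rw [one_div, inv_mul_le_iff₀ (by positivity)]; linarith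
  have ν2 : 1 / (Cd + 1) ≤ 1 := by rw [div_le_one (by positivity)]; linarith
  have W := wt_pos q
  have top : P354XL.Top (T.K σ) (fun j => wt q j * (T.y nu Ru σ j + 1 / (Cd + 1) * T.y n R3 σ j))
      (fun j => wt q j * (T.B n1 R2 σ j + μ * T.Bk J Rk σ j)) (fun j => wt q j * T.i R1 σ j)
      (fun j => wt q j * T.hy n R3 σ j + 3 * (lv q j * T.y n R3 σ j))
      (Ca + Cb + 8 * Cu + 2) (A * E) := by
    refine ⟨fun j => mul_nonneg (W j).le (add_nonneg (f.y0 ..) (mul_nonneg ν0.le (f.y0 ..))),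
      fun j => mul_nonneg (W j).le (add_nonneg (f.Bn ..) (mul_nonneg μ0.le (f.B0 ..))),
      fun j => mul_nonneg (W j).le (f.i0 ..), fun j => add_nonneg (mul_nonneg (W j).le (f.hn ..))
        (mul_nonneg (by norm_num) (mul_nonneg (lv_nn _ _) (f.y0 ..))),
      fun k hk => ?_, fun k hk => ?_, ?_, ?_, ?_⟩
    · have I0 := f.In q R1 σ k
      have a1 := (f.yP q nu Ru σ k).trans ((ea k hk).trans
        (mul_le_mul_of_nonneg_left (add_le_add_left (hD u2 v2 hk) _) ca))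
      have a2 := (f.BP q n1 R2 σ k).trans ((eb k hk).trans
        (mul_le_mul_of_nonneg_left (add_le_add_left (hD u3 v3 hk) _) cb))
      have a3 := mul_le_mul_of_nonneg_left ((f.BP q nJ RJ σ k).trans ((ec k hk).trans
        (mul_le_mul_of_nonneg_left (add_le_add_left (hD u4 v4 hk) _) cc))) cJ
      have a4 := mul_le_mul_of_nonneg_left ((f.yP q n R3 σ k).trans ((ed k hk).trans
        (mul_le_mul_of_nonneg_left (add_le_add_left (hD u7 v7 hk) _) cd))) ν0.le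
      have a5 := down qQ fun m hm => eB m (hm.trans hk)
      have a6 := mul_le_mul_of_nonneg_left (hH u5 v5 hk) cB
      have a7 := mul_le_mul_of_nonneg_left (a5.trans (add_le_add a3 a6)) μ0.le
      have a8 := mul_le_mul_of_nonneg_right μ2 (add_nonneg E0 I0)
      have a9 := mul_le_mul_of_nonneg_right μ1 (mul_nonneg cB E0)
      have b1 := mul_le_mul_of_nonneg_right ν1 (add_nonneg E0 I0)
      have b2 := AE (c := Ca + Cb + 2 + CB) (by linarith)
      have b3 := mul_nonneg cu I0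
      change _ + sm q k (fun j => T.B n1 R2 σ j + μ * T.Bk J Rk σ j) ≤ _ * T.Io q R1 σ k + _
      rw [sm_add, sm_mul]
      linarith
    · have a1 := mul_le_mul_of_nonneg_left (eu.2 k hk) (W (k + 1)).le
      have a2 := mul_le_mul_of_nonneg_right (wt_succ q0 q3 k) (mul_nonneg cu (f.y0 nu Ru σ k))
      have a3 := mul_le_mul_of_nonneg_left ((le_sm q (f.hn nu Ru σ) (le_refl (k + 1))).trans
        ((le_add_of_nonneg_left (f.D0 σ)).trans (hH u1 v1 hk))) cu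
      have a4 := AE (c := Cu) (by linarith)
      have a5 := mul_nonneg (W k).le (f.y0 nu Ru σ k)
      have a6 := mul_nonneg (by linarith : 0 ≤ Ca + Cb + 8 * Cu + 2)
        (mul_nonneg (W k).le (mul_nonneg ν0.le (f.y0 n R3 σ k)))
      have a7 := mul_nonneg (by linarith : 0 ≤ Ca + Cb + 2) a5
      linarith
    · have a1 := mul_le_mul_of_nonneg_left ei cu
      have a2 := mul_le_mul_of_nonneg_left DE cc'
      have a3 := AE (c := Cu * Ci) (by linarith)
      rw [wt_zero]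
      linarith [eu.1]
    · have a1 := mul_le_mul_of_nonneg_right ν2 (f.y0 n R3 σ 0)
      have a2 := mul_le_mul_of_nonneg_left DE (add_nonneg ci cj)
      have a3 := AE (c := Ci + Cj) (by linarith)
      rw [wt_zero]
      linarith
    · have a1 := hD u6 v6 (le_refl _)
      have a2 := AE (c := 3) (by linarith)
      have a3 := sm_nn q (T.K σ) (f.hn n R3 σ)
      rw [De] at a1
      rw [sum_add_distrib, ← mul_sum]
      change sm q (T.K σ) (T.hy n R3 σ) + _ ≤ _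
      linarith [f.D0 σ]
  have low := low_wt q0 q3 eL (f.y0 n R3 σ) (fun j => add_nonneg (mul_nonneg (by positivity)
    (f.Bn ..)) (mul_nonneg (by positivity) (f.B0 ..))) (f.i0 R1 σ) (f.hn n R3 σ) c2
  have := hs _ _ _ _ _ _ top (low_mono low (fun j => ?_) fun j => ?_)
  · rw [← hE, mul_assoc]
    exact this.trans (mul_le_mul_of_nonneg_right (le_max_left _ _)
      (mul_nonneg (by rw [hA]; positivity) E0))
  · have := mul_nonneg (mul_nonneg c2 cd) (top.f0 j)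
    linarith
  · have a1 := mul_nonneg (by positivity : 0 ≤ 12288 * C2 * (Cd + 1))
      (mul_nonneg (W j).le (f.y0 nu Ru σ j))
    have a2 : 12288 * C2 * (Cd + 1) * (wt q j * (1 / (Cd + 1) * T.y n R3 σ j)) =
        12288 * C2 * (wt q j * T.y n R3 σ j) := by field_simp
    linarith

/-- The linear estimate with the weight q. -/
theorem lin (h : T.Is) (q0 : 0 ≤ q) (qQ : q ≤ T.Q) : ∃ n2, ∀ n, n2 ≤ n → ∃ Rm, ∀ R, Rm ≤ R →
    T.Le n (T.Ph q n R) fun σ _ => T.De q n R σ (T.K σ) := by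
  have f := h.toForm
  obtain ⟨R1, n1, h1⟩ := hi h q0 qQ
  obtain ⟨N, R', C, c, e⟩ := low_bd (R1 := R1) h q0 qQ fun n R => by
    obtain ⟨Rn, h2⟩ := h1 (max n n1) (le_max_right _ _)
    obtain ⟨C, c, e⟩ := h2 R
    exact ⟨_, Rn, C, c, e.mono fun σ e k hk =>
      (f.Pm q (le_max_left n n1) le_rfl σ k).trans (e k hk)⟩
  refine ⟨max n1 N, fun n hn => ?_⟩
  obtain ⟨Rn, h2⟩ := h1 n (le_of_max_le_left hn)
  refine ⟨max Rn R', fun R hR => ?_⟩
  obtain ⟨C', c', e'⟩ := h2 R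
  refine ⟨C' * (1 + C), by positivity, ?_⟩
  filter_upwards [f.ev (le_of_max_le_right hn) e, e'] with σ e e' k hk
  have a1 := f.Dm q (le_refl n) (le_of_max_le_left hR) σ hk
  have a2 := mul_le_mul_of_nonneg_left
    (f.Dm q (le_of_max_le_right hn) (le_of_max_le_right hR) σ (le_refl (T.K σ))) c
  have a3 : T.Io q R1 σ k ≤ T.Io q R1 σ (T.K σ) := sm_k q (f.i0 R1 σ) hk
  rw [mul_assoc]
  exact (e' k hk).trans (mul_le_mul_of_nonneg_left (by linarith) c')

/-- The bound with the weight q and the loss m. -/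
def Lev (T : Sys S) (q : ℝ) (m : ℕ) : Prop :=
  ∃ n2, ∀ n, n2 ≤ n → ∀ R, T.Le (n + m) (T.Ph q n R) fun σ _ => T.D σ

theorem lev0 (h : T.Is) : T.Lev 0 0 := by
  have f := h.toForm
  obtain ⟨n2, h1⟩ := lin h le_rfl f.Q0
  obtain ⟨A, A0, hA⟩ := wt_sum f.s1
  refine ⟨max n2 T.n0, fun n hn R0 => ?_⟩
  obtain ⟨Rm, h2⟩ := h1 n (le_of_max_le_left hn)
  obtain ⟨C, c, e⟩ := h2 (max R0 Rm) (le_max_right _ _)
  refine ⟨2 * C, by positivity, ?_⟩
  filter_upwards [e, f.ev (le_of_max_le_right hn) (h.small (1 / (2 * (C * A + 1))) (by positivity))]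
    with σ e es k hk
  generalize hR : max R0 Rm = R at e
  obtain ⟨m, hm, hM⟩ := exists_max_image (range (T.K σ + 1)) (T.y n R σ) ⟨0, by simp⟩
  have a1 : sm 0 (T.K σ) (T.hy n R σ) ≤ 1 / (2 * (C * A + 1)) * T.y n R σ m * A := by
    refine le_trans ?_ (mul_le_mul_of_nonneg_left (hA (T.K σ + 1))
      (mul_nonneg (by positivity) (f.y0 ..)))
    rw [mul_sum]
    refine sum_le_sum fun j hj => ?_
    have := mul_le_mul (es j (by have := mem_range.mp hj; omega)) (hM j hj) (f.y0 ..)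
      (mul_nonneg (by positivity) (wt_pos _ j).le)
    rw [wt_q0, hy]
    linarith
  have a2 : T.De 0 n R σ (T.K σ) = T.D σ + sm 0 (T.K σ) (T.hy n R σ) := by simp [De, lv]
  have a3 := (f.yP 0 n R σ m).trans (e m (by have := mem_range.mp hm; omega))
  have a4 : C * (1 / (2 * (C * A + 1)) * A) ≤ 1 / 2 := by
    rw [show C * (1 / (2 * (C * A + 1)) * A) = C * A / (2 * (C * A + 1)) by ring,
      div_le_iff₀ (by positivity)]
    linarith
  have a5 := mul_le_mul_of_nonneg_right a4 (f.y0 n R σ m)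
  have a6 := mul_le_mul_of_nonneg_left a1 c
  have a7 := (f.Pm 0 (le_refl n) (hR ▸ le_max_left R0 Rm) σ k).trans (e k hk)
  rw [wt_q0, a2] at a3
  rw [a2] at a7
  linarith

theorem lev_succ (h : T.Is) (q0 : 0 ≤ q) (qQ : q ≤ T.Q) (hq : q ≤ q' + 1) {m : ℕ}
    (hl : T.Lev q' m) : T.Lev q (m + 1) := by
  have f := h.toForm
  obtain ⟨n2, h1⟩ := lin h q0 qQ
  obtain ⟨n3, h3⟩ := hl
  refine ⟨n2 + n3 + T.n0, fun n hn R0 => ?_⟩
  obtain ⟨Rm, h2⟩ := h1 n (by omega)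
  obtain ⟨C, c, e⟩ := h2 (max R0 Rm) (le_max_right _ _)
  obtain ⟨C', c', e'⟩ := h3 (n + 1) (by omega) (max R0 Rm)
  refine ⟨C * (1 + 2 * C'), by positivity, ?_⟩
  filter_upwards [f.ev (show n ≤ n + (m + 1) by omega) e,
    f.ev (show n + 1 + m ≤ n + (m + 1) by omega) e',
    f.ev (show T.n0 ≤ n + (m + 1) by omega) (h.small 1 one_pos)] with σ e e' es k hk
  generalize hR : max R0 Rm = R at e e'
  have a1 := (f.BP q' (n + 1) R σ (T.K σ)).trans (e' _ le_rfl)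
  have a2 : ∑ j ∈ range (T.K σ + 1), lv q j * T.y n R σ j ≤ sm q' (T.K σ) (T.B (n + 1) R σ) :=
    sum_le_sum fun j _ => mul_le_mul ((lv_le q j).trans (wt_le_wt (by linarith) j))
      (f.yB (Nat.lt_succ_self n) le_rfl σ j) (f.y0 ..) (wt_pos _ _).le
  have a3 : sm q (T.K σ) (T.hy n R σ) ≤ sm q' (T.K σ) (T.B (n + 1) R σ) := by
    refine sum_le_sum fun j hj => ?_
    rw [hy, ← mul_assoc]
    refine mul_le_mul ?_ (f.yB (Nat.lt_succ_self n) le_rfl σ j) (f.y0 ..) (wt_pos _ _).le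
    refine (mul_le_mul_of_nonneg_left (es j (by have := mem_range.mp hj; omega))
      (wt_pos q j).le).trans ?_
    rw [one_mul, ← wt_add]
    exact wt_le_wt (by linarith [f.s1]) j
  rw [mul_assoc]
  refine ((f.Pm q (le_refl n) (hR ▸ le_max_left R0 Rm) σ k).trans (e k hk)).trans
    (mul_le_mul_of_nonneg_left ?_ c)
  rw [De]
  linarith

/-- The hierarchy closes. -/
theorem hier (h : T.Is) : T.OUT := by
  have f := h.toForm
  have Q0 := f.Q0
  have l1 := lev_succ (q := min T.Q 1) h (le_min Q0 zero_le_one) (min_le_left _ _)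
    (by simp) (lev0 h)
  have l2 := lev_succ (q := min T.Q 2) h (le_min Q0 zero_le_two) (min_le_left _ _)
    (by rcases le_total T.Q 1 with a | a
        · rw [min_eq_left a]; linarith [min_le_left T.Q 2]
        · rw [min_eq_right a]; linarith [min_le_right T.Q 2]) l1
  obtain ⟨n2, h2⟩ := lev_succ h Q0 le_rfl (by
    rcases le_total T.Q 2 with a | a
    · rw [min_eq_left a]; linarith
    · rw [min_eq_right a]; linarith [f.Q3]) l2
  refine ⟨n2, fun n hn R => ?_⟩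
  obtain ⟨C, c, e⟩ := h2 (n + 1) (by omega) R
  exact ⟨C, c, (f.ev (by omega) e).mono fun σ e => (sm_mono _ _
    (f.yB (Nat.lt_succ_self n) le_rfl σ)).trans ((f.BP ..).trans (e _ le_rfl))⟩

end Sys

end Vale.Agent.P354YH
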