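import Vale.Agent.P354YH.Int

/-!
Interpolation: the jets of order m from the jets of order m + 1 and the time derivatives.
-/

open scoped ContDiff
open Set

noncomputable section

namespace Vale.Agent.P354YH

open Vale.Agent.P354XG (Der D_mul)
open Vale.Agent.P354XT Vale.Agent.P354XI Vale.Agent.P354XI.Ibp Vale.Agent.P354PE

variable {A : Type} [CommRing A] [Algebra ℂ A]
variable {Φ : Fld A} {e c ch : ℝ → ℝ} {r0 rb F b : ℝ}

namespace Bx
variable (h : Bx Φ e r0 rb F)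
include h

theorem bf {x : Φ.B.Pt} (k : (Φ.pr x).2 ∈ Icc r0 rb) : Φ.Bd x 1 (Φ.rad Φ.f) F :=
  h.is.bd_rad h.is.sf (h.f0 _ k).1 (.of0 (by rw [h.is.md_rad (Fld.sm_der h.is.sf)]; exact (h.f0 _ k).2))

theorem bZ {x : Φ.B.Pt} (k : (Φ.pr x).2 ∈ Icc r0 rb) {m : ℕ} (hm : m ≤ 1) {v : A} {a : ℝ}
    (hv : Φ.Bd x (m + 1) v a) : Φ.Bd x m (Zd Φ v) ((1 + 2 * F) * a) := by
  rw [Z_ap]
  refine (hv.R.add (((h.bf k).mono hm).mul hv.T)).le ?_
  have a1 : (2 : ℝ) ^ m ≤ 2 ^ 1 := pow_le_pow_right₀ one_le_two hm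
  linarith [mul_le_mul_of_nonneg_right a1 (mul_nonneg (h.bf k).nonneg hv.nonneg)]

theorem sqj (hc : Cs r0 rb c) {c1 : ℝ → ℝ} (h1 : Cs r0 rb c1) (c0 : ∀ r, 0 ≤ c r)
    (le : ∀ r, c r ≤ c1 r) {v u : A} {a : ℝ} {m : ℕ}
    (k : ∀ x, (Φ.pr x).2 ∈ Icc r0 rb → Φ.B.md x v ≤ a * Φ.nq x m u) :
    Jw Φ e c (Φ.sq v) ≤ a ^ 2 * Jw Φ e c1 (Φ.jq m u) :=
  h.le1 hc h1 fun x z => by
    have := mul_le_mul (le (Φ.pr x).2) (pow_le_pow_left₀ (md_nonneg x v) (k x z) 2) (sq_nonneg _)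
      ((c0 _).trans (le _))
    rw [h.is.val_sq, ← h.is.nq_sq]
    linarith

theorem perm (hc : Cs r0 rb c) (c0 : ∀ r, 0 ≤ c r) {m : ℕ} {J J' : List (Fin 5)} (p : J.Perm J')
    (hJ : J.length = m + 1) (u : A) : Jw Φ e c (Φ.sq (Φ.wd J u)) ≤
      2 * Jw Φ e c (Φ.sq (Φ.wd J' u)) + 2 * ((m : ℝ) + 1) ^ 4 * Jw Φ e c (Φ.jq m u) := by
  simpa using h.le3 hc hc hc hc (G := Φ.sq (Φ.wd J u)) (G1 := Φ.sq (Φ.wd J' u)) (G2 := Φ.jq m u)
    (G3 := Φ.jq m u) (α := 2) (β := 2 * ((m : ℝ) + 1) ^ 4) (γ := 0) fun x _ => by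
      have k := pm (g := fun J => Φ.B.ev x (Φ.wd J u)) (β := Φ.nq x m u) (n := m + 1)
        (fun p q b c e => by
          obtain ⟨z, d, hz, k⟩ := h.is.swap p q b c
          rw [← map_sub, k]
          refine (le_of_eq (md_mul x _ _)).trans ?_
          rw [h.is.B.md_rl]
          exact (mul_le_of_le_one_left (md_nonneg _ _) hz).trans
            (h.is.bd_nq x m u _ (by simp; omega))) Fld.nq_nonneg J J' [] p (by simpa using hJ)
      rw [List.nil_append, List.nil_append, ← map_sub, hJ] at k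
      have k1 := pow_le_pow_left₀ (md_nonneg _ _) k 2
      have k2 := sq_split x (Φ.wd J u) (Φ.wd J' u)
      rw [mul_pow, h.is.nq_sq] at k1
      push_cast at k1
      rw [h.is.val_sq, h.is.val_sq]
      have := mul_le_mul_of_nonneg_left (k2.trans (add_le_add_right
        (mul_le_mul_of_nonneg_left k1 zero_le_two) _)) (c0 (Φ.pr x).2)
      linarith

end Bx

theorem words_bd (hch : Inn r0 ch) (hb : r0 + 3 ≤ b) {F : ℝ} (F0 : 0 ≤ F) (m p : ℕ) :
    ∀ δ > 0, ∃ C, 0 ≤ C ∧ ∀ (A : Type) [CommRing A] [Algebra ℂ A] (Φ : Fld A) e rb,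
    Bx Φ e r0 rb F → b + 2 ≤ rb → ∀ u (J : List (Fin 5)), J.length = m + 1 →
    J.countP (· ≠ 0) ≤ p → Jw Φ e (Wb ch b) (Φ.sq (Φ.wd J u)) ≤
      δ * Jw Φ e (Wb ch (b + 1)) (Φ.jq (m + 2) u) + C * (Jw Φ e (Wb ch (b + 1)) (Φ.jq m u) +
        Jw Φ e (Wb ch (b + 1)) (Φ.sq (Φ.wd (List.replicate (m + 1) 0) u))) := by
  induction p with
  | zero =>
    refine fun δ δ0 => ⟨1, zero_le_one, fun A _ _ Φ e rb h hr u J hJ hp => ?_⟩
    have s0 := hch.wcs (b := b) (rb := rb) (by linarith)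
    have s1 := hch.wcs (b := b + 1) (rb := rb) (by linarith)
    have a0 : J = List.replicate (m + 1) 0 := List.eq_replicate_iff.2 ⟨hJ, fun a ha => by
      simpa using List.countP_eq_zero.1 (Nat.le_zero.1 hp) a ha⟩
    have a1 := h.le1 s0 s1 (G := Φ.sq (Φ.wd J u)) (G1 := Φ.sq (Φ.wd J u)) (α := 1) fun x _ => by
      rw [one_mul, h.is.val_sq]
      exact mul_le_mul_of_nonneg_right (hch.wmono (by linarith) _) (sq_nonneg _)
    have a2 := fun m => h.nn s1 (hch.wnn _) (G := Φ.jq m u) fun x => h.is.jq_nonneg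
    rw [← a0]
    linarith [a2 m, mul_nonneg δ0.le (a2 (m + 2))]
  | succ p ih =>
    intro δ δ0
    obtain ⟨C1, c1, h1⟩ := ih (δ / (8 * (F ^ 2 + 1))) (by positivity)
    obtain ⟨C0, c0, h0⟩ := ih δ δ0
    obtain ⟨C2, c2, h2⟩ := stepZ hch hb (δ := δ / (16 * (1 + 2 * F) ^ 4)) (by positivity)
    refine ⟨C0 + 4 * F ^ 2 * C1 + 4 * C2 + 8 / δ + 2 * ((m : ℝ) + 1) ^ 4, by positivity,
      fun A _ _ Φ e rb h hr u J hJ hp => ?_⟩
    have s0 := hch.wcs (b := b) (rb := rb) (by linarith)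
    have s1 := hch.wcs (b := b + 1) (rb := rb) (by linarith)
    have w01 := hch.wmono (show b ≤ b + 1 by linarith)
    have a2 := fun m => h.nn s1 (hch.wnn _) (G := Φ.jq m u) fun x => h.is.jq_nonneg
    have a3 := h.nn s1 (hch.wnn _) (G := Φ.sq (Φ.wd (List.replicate (m + 1) 0) u)) fun x => by
      rw [h.is.val_sq]; exact sq_nonneg _
    have t0 := a2 (m + 2)
    have t1 := a2 m
    have t2 := add_nonneg t1 a3
    have u1 := mul_nonneg c0 t2
    have u2 := mul_nonneg (by positivity : 0 ≤ 4 * F ^ 2 * C1) t2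
    have u3 := mul_nonneg c2 t1
    have u4 := mul_nonneg c2 a3
    have u5 := mul_nonneg (by positivity : 0 ≤ 8 / δ) t1
    have u6 := mul_nonneg (by positivity : 0 ≤ 8 / δ) a3
    have u7 := mul_nonneg (by positivity : 0 ≤ 2 * ((m : ℝ) + 1) ^ 4) t1
    have u8 := mul_nonneg (by positivity : 0 ≤ 2 * ((m : ℝ) + 1) ^ 4) a3
    rcases le_or_gt (J.countP (· ≠ 0)) p with k | k
    · linarith [h0 A Φ e rb h hr u J hJ k]
    obtain ⟨a, J1, ha, pJ, hc⟩ := pick (P := (· ≠ 0)) (J := J) (by omega)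
    have l1 : J1.length = m := by have := pJ.length_eq; simp at this; omega
    have b1 := h.perm s0 (hch.wnn _) pJ hJ u
    have b2 := h.le1 s0 s1 (G := Φ.jq m u) (G1 := Φ.jq m u) (α := 1) fun x _ => by
      rw [one_mul]; exact mul_le_mul_of_nonneg_right (w01 _) h.is.jq_nonneg
    have b3 := mul_le_mul_of_nonneg_left b2 (by positivity : 0 ≤ 2 * ((m : ℝ) + 1) ^ 4)
    have v2 : ∀ x, Φ.Bd x 2 (Φ.wd J1 u) (Φ.nq x (m + 2) u) := fun x =>
      (h.is.bd_nq x (m + 2) u).wd (by omega)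
    have v0 := fun {c} (s : Cs r0 rb c) c0 le => h.sqj s s1 c0 le (v := Φ.wd J1 u) (a := 1) (m := m)
      (u := u) fun x _ => by rw [one_mul]; exact h.is.bd_nq x m u _ l1.le
    rw [Fld.wd_cons] at b1
    have ang : ∀ i, Φ.X a = Φ.L i → Jw Φ e (Wb ch b) (Φ.sq (Φ.X a (Φ.wd J1 u))) ≤
        δ / 2 * Jw Φ e (Wb ch (b + 1)) (Φ.jq (m + 2) u) +
          4 / δ * Jw Φ e (Wb ch (b + 1)) (Φ.jq m u) := fun i hi => by
      have d1 := h.ibp (h.is.sk a) s0 (c1 := fun _ => 0) ⟨contDiff_const, fun _ _ => rfl⟩ s1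
        (hch.wnn _) (by rw [hi, D_mul, h.is.L_rad s0.sm, h.is.L_tm h.sm, h.is.rad_cst, rl_zero]; ring)
        (κ := 1) (δ := δ / 4) (by positivity)
        (fun r => by rw [abs_of_nonneg (hch.wnn _ _), one_mul]; exact w01 r)
        (fun r => by simpa using hch.wnn _ r) (Φ.wd J1 u)
      have d2 := h.sqj s1 s1 (hch.wnn _) (fun _ => le_rfl) (a := 1) fun x _ => by
        rw [one_mul]; exact (((v2 x).X a).X a).md
      have d3 := h.sqj s1 s1 (hch.wnn _) (fun _ => le_rfl) (a := 1) fun x _ => by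
        rw [one_mul]; exact ((v2 x).X a).md
      have d4 := mul_le_mul_of_nonneg_left (add_le_add d2 d3) (by positivity : 0 ≤ δ / 4)
      have d5 := mul_le_mul_of_nonneg_left (v0 s1 (hch.wnn _) fun _ => le_rfl)
        (by positivity : 0 ≤ 4 / δ)
      rw [show 1 ^ 2 / (δ / 4) = 4 / δ by field_simp] at d1
      linarith
    rw [show 8 / δ = 2 * (4 / δ) by ring] at u5 u6 ⊢
    rcases (show ∀ a : Fin 5, decide (a ≠ 0) = true → a = 1 ∨ a = 2 ∨ a = 3 ∨ a = 4 by decide) a ha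
      with rfl | rfl | rfl | rfl
    · have d1 := h2 A Φ e rb F h hr (Φ.wd J1 u)
      have f1 : 1 ≤ 1 + 2 * F := by linarith
      have d2 := h.sqj s1 s1 (hch.wnn _) (fun _ => le_rfl) (a := (1 + 2 * F) ^ 2) fun x z => by
        rw [sq, mul_assoc]; exact (h.bZ z zero_le_one (h.bZ z le_rfl (v2 x))).md
      have d3 := h.sqj s1 s1 (hch.wnn _) (fun _ => le_rfl) (a := (1 + 2 * F) ^ 2) fun x z =>
        (h.bZ z le_rfl (v2 x)).md.trans (mul_le_mul_of_nonneg_right (by nlinarith) Fld.nq_nonneg)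
      have d4 := mul_le_mul_of_nonneg_left (add_le_add d2 d3)
        (by positivity : 0 ≤ δ / (16 * (1 + 2 * F) ^ 4))
      have d5 := mul_le_mul_of_nonneg_left (v0 s1 (hch.wnn _) fun _ => le_rfl) c2
      have d6 := h1 A Φ e rb h hr u (0 :: J1) (by simp [l1]) (by
        rw [List.countP_cons_of_neg (by simp)]; omega)
      have d7 := h.le3 s0 s0 s0 s0 (G := Φ.sq (Φ.X 1 (Φ.wd J1 u))) (G1 := Φ.sq (Zd Φ (Φ.wd J1 u)))
        (G2 := Φ.sq (Φ.wd (0 :: J1) u)) (G3 := 0) (α := 2) (β := 2 * F ^ 2) (γ := 0) fun x z => by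
        have g1 := sq_split x (Φ.X 1 (Φ.wd J1 u)) (Zd Φ (Φ.wd J1 u))
        have g2 : Φ.B.md x (Φ.X 1 (Φ.wd J1 u) - Zd Φ (Φ.wd J1 u)) ≤
            F * Φ.B.md x (Φ.wd (0 :: J1) u) := by
          rw [Bx.Z_ap, Fld.X1, sub_add_cancel_left, md_neg, md_mul]
          exact mul_le_mul_of_nonneg_right (h.bf z).md (md_nonneg _ _)
        have := mul_le_mul_of_nonneg_left (g1.trans (add_le_add_right (mul_le_mul_of_nonneg_left
          (pow_le_pow_left₀ (md_nonneg _ _) g2 2) zero_le_two) _)) (hch.wnn b (Φ.pr x).2)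
        rw [h.is.val_sq, h.is.val_sq, h.is.val_sq]
        linarith
      have d8 := mul_le_mul_of_nonneg_left d6 (by positivity : 0 ≤ 4 * F ^ 2)
      have d9 : 4 * F ^ 2 * (δ / (8 * (F ^ 2 + 1))) ≤ δ / 2 := by
        rw [show 4 * F ^ 2 * (δ / (8 * (F ^ 2 + 1))) = δ / 2 * F ^ 2 / (F ^ 2 + 1) by
          field_simp; ring, div_le_iff₀ (by positivity)]
        nlinarith
      have d10 := mul_le_mul_of_nonneg_right d9 t0
      have d11 : δ / (16 * (1 + 2 * F) ^ 4) * ((1 + 2 * F) ^ 2) ^ 2 = δ / 16 := by field_simp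
      rw [← add_mul, ← mul_assoc, mul_add _ (_ ^ 2), d11] at d4
      linarith
    · linarith [ang 0 rfl]
    · linarith [ang 1 rfl]
    · linarith [ang 2 rfl]

/-- The interpolation inequality on a slab. -/
theorem intp (hch : Inn r0 ch) {F : ℝ} (F0 : 0 ≤ F) (m : ℕ) : ∀ b, r0 + 3 ≤ b → ∀ δ > 0,
    ∃ C, 0 ≤ C ∧ ∀ (A : Type) [CommRing A] [Algebra ℂ A] (Φ : Fld A) e rb,
    Bx Φ e r0 rb F → b + m + 1 ≤ rb → ∀ u, Jw Φ e (Wb ch b) (Φ.jq m u) ≤
      δ * Jw Φ e (Wb ch (b + m)) (Φ.jq (m + 1) u) + C * ∑ i ∈ Finset.range (m + 1),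
        Jw Φ e (Wb ch (b + m)) (Φ.sq (Φ.wd (List.replicate i 0) u)) := by
  induction m with
  | zero =>
    refine fun b hb δ δ0 => ⟨1, zero_le_one, fun A _ _ Φ e rb h hr u => ?_⟩
    have := h.nn (hch.wcs (b := b) (rb := rb) (by simpa using hr)) (hch.wnn _) (G := Φ.jq 1 u)
      fun x => h.is.jq_nonneg
    have a : Φ.jq 0 u = Φ.sq u := by simp [Fld.jq, Fld.lv, words, Fld.wd]
    simp only [Nat.cast_zero, add_zero, zero_add, Finset.sum_range_one, List.replicate_zero, a,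
      Fld.wd_nil, one_mul]
    linarith [mul_nonneg δ0.le this]
  | succ m ih =>
    intro b hb δ δ0
    have n1 := nw_pos (m + 1)
    obtain ⟨C1, c1, h1⟩ := words_bd hch hb F0 m (m + 1) (δ / (2 * nw (m + 1))) (by positivity)
    obtain ⟨C2, c2, h2⟩ := ih (b + 1) (by linarith) (δ / (2 * (nw (m + 1) * (C1 + 1))))
      (by positivity)
    refine ⟨nw (m + 1) * (C1 + 1) * (C2 + 1), by positivity, fun A _ _ Φ e rb h hr u => ?_⟩
    have m0 : (0 : ℝ) ≤ m := Nat.cast_nonneg m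
    push_cast at hr ⊢
    have s0 := hch.wcs (b := b) (rb := rb) (by linarith)
    have s1 := hch.wcs (b := b + 1) (rb := rb) (by linarith)
    have s2 := hch.wcs (b := b + (m + 1)) (rb := rb) (by linarith)
    have a1 := h2 A Φ e rb h (by linarith) u
    rw [show b + 1 + m = b + (m + 1) by ring] at a1
    have w : ∀ {G : A}, (∀ x, 0 ≤ Φ.B.val x G) →
        Jw Φ e (Wb ch (b + 1)) G ≤ 1 * Jw Φ e (Wb ch (b + (m + 1))) G := fun k =>
      h.le1 s1 s2 fun x _ => by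
        rw [one_mul]; exact mul_le_mul_of_nonneg_right (hch.wmono (by linarith) _) (k x)
    have q0 : ∀ v x, 0 ≤ Φ.B.val x (Φ.sq v) := fun v x => by rw [h.is.val_sq]; exact sq_nonneg _
    have a2 := w (G := Φ.jq (m + 2) u) fun x => h.is.jq_nonneg
    have a3 := w (q0 (Φ.wd (List.replicate (m + 1) 0) u))
    have a4 := h.le1 s2 s2 (G := Φ.jq (m + 1) u) (G1 := Φ.jq (m + 2) u) (α := 1) fun x _ => by
      rw [one_mul]; exact mul_le_mul_of_nonneg_left (h.is.lv_mono x (by omega) _) (hch.wnn _ _)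
    have t0 := h.nn s1 (hch.wnn _) (G := Φ.jq (m + 2) u) fun x => h.is.jq_nonneg
    have t1 := h.nn s1 (hch.wnn _) (G := Φ.jq m u) fun x => h.is.jq_nonneg
    have t2 := h.nn s1 (hch.wnn _) (q0 (Φ.wd (List.replicate (m + 1) 0) u))
    have t3 := Finset.sum_nonneg (s := Finset.range (m + 1)) fun i _ =>
      h.nn s2 (hch.wnn _) (q0 (Φ.wd (List.replicate i 0) u))
    have a5 : Jw Φ e (Wb ch b) (Φ.jq (m + 1) u) ≤ nw (m + 1) *
        (δ / (2 * nw (m + 1)) * Jw Φ e (Wb ch (b + 1)) (Φ.jq (m + 2) u) +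
        (C1 + 1) * (Jw Φ e (Wb ch (b + 1)) (Φ.jq m u) +
          Jw Φ e (Wb ch (b + 1)) (Φ.sq (Φ.wd (List.replicate (m + 1) 0) u)))) := by
      rw [Jw, Fld.jq, Fld.lv, Finset.mul_sum, J_sum, nw, ← nsmul_eq_mul]
      refine Finset.sum_le_card_nsmul _ _ _ fun J hJ => ?_
      have d0 := mul_nonneg (by positivity : 0 ≤ δ / (2 * nw (m + 1))) t0
      rcases (mem_words.1 hJ).eq_or_lt with k | k
      · refine (h1 A Φ e rb h (by linarith) u J k (List.countP_le_length.trans k.le)).trans ?_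
        rw [nw]; linarith
      · refine (h.sqj s0 s1 (hch.wnn _) (hch.wmono (by linarith)) (a := 1) (m := m) (u := u)
          fun x _ => by rw [one_mul]; exact h.is.bd_nq x m u _ (by omega)).trans ?_
        rw [nw] at d0
        linarith [mul_nonneg c1 (add_nonneg t1 t2)]
    have a6 := mul_le_mul_of_nonneg_left (add_le_add a1 a3)
      (by positivity : 0 ≤ nw (m + 1) * (C1 + 1))
    have a7 : nw (m + 1) * (δ / (2 * nw (m + 1))) = δ / 2 := by field_simp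
    have a8 : nw (m + 1) * (C1 + 1) * (δ / (2 * (nw (m + 1) * (C1 + 1)))) = δ / 2 := by field_simp
    rw [mul_add, ← mul_assoc, a7, ← mul_assoc] at a5
    rw [mul_add _ (_ + _), mul_add _ (_ * _), ← mul_assoc, a8] at a6
    rw [Finset.sum_range_succ _ (m + 1)]
    have a9 := mul_nonneg (by positivity : 0 ≤ nw (m + 1) * (C1 + 1)) t3
    have a10 := mul_nonneg (by positivity : 0 ≤ nw (m + 1) * (C1 + 1) * C2) (t2.trans a3)
    have a11 := mul_le_mul_of_nonneg_left (add_le_add a2 a4) (by positivity : 0 ≤ δ / 2)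
    linarith

end Vale.Agent.P354YH
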