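import Vale.Agent.P354XL.Step

/-!
The hierarchy of the estimates in L2: the functionals on unit slabs and the inputs.
-/

open Finset Filter

noncomputable section

namespace Vale.Agent.P354YH

/-- The weight (1 + j)^q and the weighted sum over j ≤ k. -/
def wt (q : ℝ) (j : ℕ) : ℝ := (1 + j : ℝ) ^ q
def sm (q : ℝ) (k : ℕ) (f : ℕ → ℝ) : ℝ := ∑ j ∈ range (k + 1), wt q j * f j

/-- States σ with filters F n (enough regularity for the order n, large outer radius, small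
size), slabs j ≤ K σ, data D σ, distance h σ j to Kerr. y n R = all words of length at most n on
r ≤ R, x n R = the same on rb ≤ r ≤ R, i R = term of low order, Gd n R = layer of the estimate of
order n which is cut at R, Bk J R = bulk of the estimate at bounded frequencies. -/
structure Sys (S : Type) where
  F : ℕ → Filter S
  Q : ℝ
  s : ℝ
  rb : ℝ
  n0 : ℕ
  g : ℕ
  K : S → ℕ
  D : S → ℝ
  h : S → ℕ → ℝ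
  y : ℕ → ℝ → S → ℕ → ℝ
  x : ℕ → ℝ → S → ℕ → ℝ
  i : ℝ → S → ℕ → ℝ
  Gd : ℕ → ℝ → S → ℕ → ℝ
  Bk : ℕ → ℝ → S → ℕ → ℝ

namespace Sys

variable {S : Type} (T : Sys S)

/-- The bulk of order n. -/
def B (n : ℕ) (R : ℝ) (σ : S) (j : ℕ) : ℝ := T.y (n - 1) R σ j + T.x n R σ j

/-- The quadratic terms of order n. -/
def hy (n : ℕ) (R : ℝ) (σ : S) (j : ℕ) : ℝ := T.h σ j * T.y n R σ j

/-- The terms of lower order in the near estimate and in the far estimate. -/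
def lo (n : ℕ) (R : ℝ) (σ : S) (j : ℕ) : ℝ := if n = T.n0 then T.i R σ j else T.B (n - 1) R σ j
def lo' (n : ℕ) (R : ℝ) (σ : S) (j : ℕ) : ℝ := if n = T.n0 then 0 else T.B (n - 1) R σ j

/-- The formal properties of the functionals. -/
structure Form : Prop where
  anti : Antitone T.F
  Q0 : 0 ≤ T.Q
  Q3 : T.Q ≤ 3
  s1 : 1 < T.s
  D0 : ∀ σ, 0 ≤ T.D σ
  h0 : ∀ σ j, 0 ≤ T.h σ j
  y0 : ∀ n R σ j, 0 ≤ T.y n R σ j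
  x0 : ∀ n R σ j, 0 ≤ T.x n R σ j
  i0 : ∀ R σ j, 0 ≤ T.i R σ j
  G0 : ∀ n R σ j, 0 ≤ T.Gd n R σ j
  B0 : ∀ n R σ j, 0 ≤ T.Bk n R σ j
  ym : ∀ {n n' R R'}, n ≤ n' → R ≤ R' → ∀ σ j, T.y n R σ j ≤ T.y n' R' σ j
  xm : ∀ {n n' R R'}, n ≤ n' → R ≤ R' → ∀ σ j, T.x n R σ j ≤ T.x n' R' σ j
  im : ∀ {R R'}, R ≤ R' → ∀ σ j, T.i R σ j ≤ T.i R' σ j
  xy : ∀ n R σ j, T.x n R σ j ≤ T.y n R σ j
  split : ∀ n R R0, T.rb ≤ R0 → ∀ σ j, T.y n R σ j ≤ T.y n R0 σ j + T.x n R σ j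

/-- The distance to Kerr is small and decays. -/
def SMALL : Prop := ∀ ε > 0, ∀ᶠ σ in T.F T.n0, ∀ j ≤ T.K σ, T.h σ j ≤ ε * wt (-T.s) j

/-- The first three slabs. -/
def INIT : Prop :=
  ∀ n R, ∃ C, 0 ≤ C ∧ ∀ᶠ σ in T.F n, ∀ j ≤ 2, j ≤ T.K σ → T.y n R σ j ≤ C * T.D σ

/-- The near estimate of order n on the slabs k1, …, k2. -/
def NEAR : Prop := ∀ n, T.n0 ≤ n → ∀ R, ∃ C0, 0 ≤ C0 ∧ ∀ R2, ∃ R', R2 ≤ R' ∧ ∃ R3, ∀ ε > 0,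
  ∃ R'' C, 0 ≤ C ∧ ∀ᶠ σ in T.F n, ∀ k1 k2, k1 + 2 ≤ k2 → k2 ≤ T.K σ →
    T.y n R σ k2 + ∑ j ∈ Icc k1 k2, T.B n R σ j ≤ C0 * ∑ j ∈ Icc k1 k2, T.Gd n R' σ j +
      ε * (∑ j ∈ Icc (k2 - 3) k2, T.y n R3 σ j + ∑ j ∈ Icc k1 k2, T.B n R3 σ j) +
      C * (∑ j ∈ Icc k1 (k1 + 2), T.y n R'' σ j +
        ∑ j ∈ Icc k1 k2, (T.lo n R'' σ j + T.hy n R'' σ j))

/-- The layers are small. -/
def FL : Prop := ∀ n, T.n0 ≤ n → ∃ R0, ∀ θ > 0, ∃ R2, ∀ R', R2 ≤ R' → ∃ R'' C, 0 ≤ C ∧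
  ∀ᶠ σ in T.F n, ∀ k ≤ T.K σ, sm T.Q k (T.Gd n R' σ) ≤
    θ * sm T.Q k (fun j => T.B n R0 σ j + T.y T.g R0 σ j) +
      C * (T.D σ + sm T.Q k fun j => T.lo' n R'' σ j + T.hy n R'' σ j)

/-- The extension to all radii. -/
def FX : Prop := ∀ n, T.n0 ≤ n → ∃ R0, ∀ R, ∃ C, 0 ≤ C ∧ ∀ᶠ σ in T.F n, ∀ k ≤ T.K σ,
  sm T.Q k (T.x n R σ) ≤ C * (T.D σ + sm T.Q k fun j => T.B n R0 σ j + T.y T.g R0 σ j)

/-- The bulk at bounded frequencies. -/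
def FB : Prop := ∀ J, ∃ n R0 CJ, 0 ≤ CJ ∧ ∀ Rc, ∃ R'' C, 0 ≤ C ∧
  ∀ᶠ σ in T.F n, ∀ k ≤ T.K σ, sm T.Q k (T.Bk J Rc σ) ≤
    CJ * sm T.Q k (T.B n R0 σ) + C * (T.D σ + sm T.Q k (T.hy n R'' σ))

/-- The estimate of low order. -/
def LOW : Prop := ∀ R, ∃ n1 R', ∀ C0 δs, 0 < δs → ∃ J, ∀ δ > 0, ∃ Rc n R'' C2, 0 ≤ C2 ∧
  ∀ᶠ σ in T.F n, P354XL.Low (T.K σ) (T.y n R'' σ)
    (fun j => δs * T.B n1 R' σ j + δ * T.Bk J Rc σ j) (T.i R σ) (T.hy n R'' σ) C0 1 C2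

/-- The estimate in unit time. -/
def UNIT : Prop := ∀ R, ∃ n R' C, 0 ≤ C ∧ ∀ᶠ σ in T.F n, T.i R σ 0 ≤ C * T.y n R' σ 0 ∧
  ∀ k < T.K σ, T.i R σ (k + 1) ≤ C * (T.y n R' σ k + T.hy n R' σ (k + 1))

/-- All inputs. -/
structure Is : Prop extends T.Form where
  small : T.SMALL
  init : T.INIT
  near : T.NEAR
  fl : T.FL
  fx : T.FX
  fb : T.FB
  low : T.LOW
  unit : T.UNIT

/-- The output. -/
def OUT : Prop := ∃ n2, ∀ n, n2 ≤ n → ∀ R, ∃ C, 0 ≤ C ∧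
  ∀ᶠ σ in T.F (n + 4), sm T.Q (T.K σ) (T.y n R σ) ≤ C * T.D σ

end Sys

end Vale.Agent.P354YH
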