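import Vale.Agent.P354YH.Chain

/-!
The chain of the near estimates: all orders are bounded by the term of low order.
-/

open Finset Filter

noncomputable section

namespace Vale.Agent.P354YH

namespace Sys

variable {S : Type} {T : Sys S} {q : ℝ} {n : ℕ}

theorem chain (h : T.Is) (q0 : 0 ≤ q) (qQ : q ≤ T.Q) {n1 : ℕ} (h1 : T.g < n1) (n : ℕ)
    (hn : T.n0 ≤ n) : n ≤ n1 → ∃ R0, ∀ R, ∀ θ > 0, ∃ R'',
      T.Lt n (T.Ph q n R) θ (T.Ph q n1 R0) fun σ k => T.De q n R'' σ k + T.Io q R'' σ k := by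
  have f := h.toForm
  induction n, hn using Nat.le_induction with
  | base =>
    intro h2
    obtain ⟨R0, hR⟩ := near1 h q0 qQ le_rfl
    refine ⟨R0, fun R θ θ0 => ?_⟩
    obtain ⟨R'', C, c, e⟩ := hR R θ θ0
    refine ⟨R'', C, c, e.mono fun σ e k hk => (e k hk).trans (add_le_add
      (mul_le_mul_of_nonneg_left (f.Pm q (by omega) le_rfl σ k) θ0.le) (le_of_eq ?_))⟩
    beta_reduce
    rw [show T.lo T.n0 R'' σ = T.i R'' σ from funext fun j => if_pos rfl]
    rfl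
  | succ n hn ih =>
    intro h2
    obtain ⟨R0, hR⟩ := near1 h q0 qQ (hn.trans (Nat.le_succ n))
    obtain ⟨R1, ih⟩ := ih (by omega)
    refine ⟨max R0 R1, fun R θ θ0 => ?_⟩
    obtain ⟨R2, C, c, e⟩ := hR R (θ / 2) (by positivity)
    obtain ⟨R3, C', c', e'⟩ := ih R2 (θ / (2 * (C + 1))) (by positivity)
    refine ⟨max R2 R3, C * (1 + C'), by positivity, ?_⟩
    filter_upwards [e, f.ev (Nat.le_succ n) e'] with σ e e' k hk
    have a1 := e k hk
    have a2 := e' k hk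
    beta_reduce at a1 a2
    rw [show T.lo (n + 1) R2 σ = T.B n R2 σ from funext fun j => if_neg (by omega)] at a1
    have a3 := f.BP q n R2 σ k
    have a4 := mul_le_mul_of_nonneg_left
      (f.Pm q (show max (n + 1) (T.g + 1) ≤ n1 by omega) (le_max_left R0 R1) σ k) θ0.le
    have a5 := mul_le_mul_of_nonneg_left (f.Pm q (le_refl n1) (le_max_right R0 R1) σ k)
      (by positivity : 0 ≤ θ / (2 * (C + 1)))
    have a6 := f.Dm q (le_refl (n + 1)) (le_max_left R2 R3) σ (le_refl k)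
    have a7 := mul_le_mul_of_nonneg_left (add_le_add
      (f.Dm q (Nat.le_succ n) (le_max_right R2 R3) σ (le_refl k))
      (sm_mono q k (f.im (le_max_right R2 R3) σ))) c'
    have a8 := f.In q (max R2 R3) σ k
    have a9 := mul_le_mul_of_nonneg_left (show T.De q (n + 1) R2 σ k + sm q k (T.B n R2 σ) ≤
      θ / (2 * (C + 1)) * T.Ph q n1 (max R0 R1) σ k +
      (1 + C') * (T.De q (n + 1) (max R2 R3) σ k + T.Io q (max R2 R3) σ k) by
        unfold Io at *; linarith) c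
    have d5 : C * (θ / (2 * (C + 1))) ≤ θ / 2 := by
      rw [show C * (θ / (2 * (C + 1))) = θ / 2 * C / (C + 1) by field_simp,
        div_le_iff₀ (by positivity)]
      nlinarith
    have d6 := mul_le_mul_of_nonneg_right d5 (f.Pn q n1 (max R0 R1) σ k)
    linarith

/-- Absorption at one radius and extension to all radii. -/
theorem close (h : T.Is) (qQ : q ≤ T.Q) (hn : T.n0 ≤ n) (hg : T.g < n) {Z : ℝ → S → ℕ → ℝ}
    (hZ : ∀ R σ k, T.D σ ≤ Z R σ k)
    (hR : ∃ R0, ∀ R, ∀ θ > 0, ∃ R'', T.Lt n (T.Ph q n R) θ (T.Ph q n R0) (Z R'')) :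
    ∃ R'', ∀ R, T.Le n (T.Ph q n R) (Z R'') := by
  have f := h.toForm
  obtain ⟨R0, hR⟩ := hR
  obtain ⟨R1, hX⟩ := ext h qQ hn
  rw [show max n (T.g + 1) = n by omega] at hX
  obtain ⟨R'', C, c, e⟩ := hR (max R0 R1) (1 / 2) (by positivity)
  refine ⟨R'', fun R => ?_⟩
  obtain ⟨C', c', e'⟩ := hX R
  refine ⟨C' * (2 * C + 1), by positivity, ?_⟩
  filter_upwards [e, e'] with σ e e' k hk
  rw [mul_assoc]
  exact (e' k hk).trans (mul_le_mul_of_nonneg_left (by
    linarith [e k hk, f.Pm q (le_refl n) (le_max_left R0 R1) σ k,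
      f.Pm q (le_refl n) (le_max_right R0 R1) σ k, hZ R'' σ k]) c')

theorem hi (h : T.Is) (q0 : 0 ≤ q) (qQ : q ≤ T.Q) : ∃ R1 n1, ∀ n, n1 ≤ n → ∃ Rn, ∀ R,
    T.Le n (T.Ph q n R) fun σ k => T.De q n Rn σ k + T.Io q R1 σ k := by
  have f := h.toForm
  obtain ⟨n1, h0, h1⟩ : ∃ n1, T.n0 ≤ n1 ∧ T.g < n1 := ⟨T.n0 + T.g + 1, by omega, by omega⟩
  obtain ⟨R1, hb⟩ := close h qQ h0 h1 (Z := fun R σ k => T.De q n1 R σ k + T.Io q R σ k)
    (fun R σ k => le_add_of_le_of_nonneg (f.DD ..) (f.In ..)) (chain h q0 qQ h1 n1 h0 le_rfl)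
  refine ⟨R1, n1, fun n hn => ?_⟩
  induction n, hn using Nat.le_induction with
  | base => exact ⟨R1, hb⟩
  | succ n hn ih =>
    obtain ⟨Rn, ih⟩ := ih
    have a0 := near1 h q0 qQ (show T.n0 ≤ n + 1 by omega)
    rw [show max (n + 1) (T.g + 1) = n + 1 by omega] at a0
    obtain ⟨R2, hc⟩ := close h qQ (by omega) (by omega)
      (Z := fun R σ k => T.De q (n + 1) R σ k + sm q k (T.lo (n + 1) R σ))
      (fun R σ k => le_add_of_le_of_nonneg (f.DD ..) (sm_nn _ _ (f.lon _ R σ))) a0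
    obtain ⟨C', c', e'⟩ := ih R2
    refine ⟨max R2 Rn, fun R => ?_⟩
    obtain ⟨C, c, e⟩ := hc R
    refine ⟨C * (1 + C'), by positivity, ?_⟩
    filter_upwards [e, f.ev (Nat.le_succ n) e'] with σ e e' k hk
    have a1 := e k hk
    have a2 := e' k hk
    beta_reduce at a1 a2
    rw [show T.lo (n + 1) R2 σ = T.B n R2 σ from funext fun j => if_neg (by omega)] at a1
    have a3 := f.BP q n R2 σ k
    have a6 := f.Dm q (le_refl (n + 1)) (le_max_left R2 Rn) σ (le_refl k)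
    have a7 := mul_le_mul_of_nonneg_left
      (f.Dm q (Nat.le_succ n) (le_max_right R2 Rn) σ (le_refl k)) c'
    have a8 := f.In q R1 σ k
    rw [mul_assoc]
    exact a1.trans (mul_le_mul_of_nonneg_left (by linarith) c)

end Sys

end Vale.Agent.P354YH
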