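import Vale.Agent.P354XT.Jet
import Vale.Agent.P354PE.Core

/-!
Interpolation on the slices of the time, with a weight which degenerates at the inner end.
-/

open scoped ContDiff
open Set

noncomputable section

namespace Vale.Agent.P354YH

open Vale.Agent.P354XG (Der D_mul)
open Vale.Agent.P354XT Vale.Agent.P354XI Vale.Agent.P354XI.Ibp

variable {A : Type} [CommRing A] [Algebra ℂ A]

/-- The weight e in time, the radial interval, and a bound for the slope. -/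
structure Bx (Φ : Fld A) (e : ℝ → ℝ) (r0 rb F : ℝ) : Prop where
  is : Φ.Is
  sm : ContDiff ℝ ∞ e
  pos : ∀ t, 0 ≤ e t
  box : ∃ ta tb, Icc ta tb ×ˢ Icc r0 rb ⊆ Φ.Om ∧ ∀ t, t ∉ Icc ta tb → e t = 0
  f0 : ∀ r ∈ Icc r0 rb, |Φ.f r| ≤ F ∧ |deriv Φ.f r| ≤ F

/-- Smooth functions with support in the radial interval. -/
structure Cs (r0 rb : ℝ) (c : ℝ → ℝ) : Prop where
  sm : ContDiff ℝ ∞ c
  out : ∀ r, r ∉ Icc r0 rb → c r = 0

/-- The inner cut off. -/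
structure Inn (r0 : ℝ) (ch : ℝ → ℝ) : Prop where
  sm : ContDiff ℝ ∞ ch
  mono : Monotone ch
  zero : ∀ r, r ≤ r0 → ch r = 0
  pos : ∀ r, r0 < r → 0 < ch r

/-- The weighted integral, the radial weight, the field tangent to the slices. -/
def Jw (Φ : Fld A) (e c : ℝ → ℝ) (G : A) : ℝ := Φ.B.J (Φ.tm e * Φ.rad c * G)
def Wb (ch : ℝ → ℝ) (b r : ℝ) : ℝ := ch r * dn b (b + 1) r
def Zd (Φ : Fld A) : Der A := Φ.R + Φ.rad Φ.f • Φ.T

variable {Φ : Fld A} {e c c1 c2 c3 ch : ℝ → ℝ} {r0 rb F b : ℝ}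

theorem Cs.der (h : Cs r0 rb c) : Cs r0 rb (deriv c) :=
  ⟨Fld.sm_der h.sm, fun r hr => by
    rw [Filter.EventuallyEq.deriv_eq (f := fun _ => 0), deriv_const]
    filter_upwards [isClosed_Icc.isOpen_compl.mem_nhds hr] with s hs using h.out s hs⟩

theorem Inn.nn (h : Inn r0 ch) (r : ℝ) : 0 ≤ ch r := by
  rcases le_or_gt r r0 with k | k
  exacts [(h.zero r k).ge, (h.pos r k).le]

theorem Inn.cs (h : Inn r0 ch) {g : ℝ → ℝ} (hg : ContDiff ℝ ∞ g) (g0 : ∀ r, rb ≤ r → g r = 0) :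
    Cs r0 rb fun r => ch r * g r :=
  ⟨h.sm.mul hg, fun r hr => by
    rcases not_and_or.1 hr with k | k
    · rw [h.zero r (not_le.1 k).le, zero_mul]
    · rw [g0 r (not_le.1 k).le, mul_zero]⟩

theorem Inn.wcs (h : Inn r0 ch) (hb : b + 1 ≤ rb) : Cs r0 rb (Wb ch b) :=
  h.cs (dn_sm _ _) fun r hr => dn_zero (by linarith) (by linarith)

theorem Inn.wnn (h : Inn r0 ch) (b r : ℝ) : 0 ≤ Wb ch b r := mul_nonneg (h.nn r) (dn_nonneg ..)

theorem Inn.weq {b' r : ℝ} (hr : r ≤ b') : Wb ch b' r = ch r := by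
  rw [Wb, dn_one (by linarith) hr, mul_one]

theorem Inn.wmono (h : Inn r0 ch) {b' : ℝ} (hb : b ≤ b') (r : ℝ) : Wb ch b r ≤ Wb ch b' r := by
  refine mul_le_mul_of_nonneg_left (sub_le_sub_left (Real.smoothTransition.monotone ?_) _) (h.nn r)
  simp only [add_sub_cancel_left, div_one]
  linarith

theorem dom {g : ℝ → ℝ} {x y : ℝ} (hg : Continuous g) (g0 : ∀ r, r ∉ Icc x y → g r = 0)
    (c0 : ∀ r, 0 ≤ c r) {m : ℝ} (m0 : 0 < m) (hm : ∀ r ∈ Icc x y, m ≤ c r) :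
    ∃ κ, 0 ≤ κ ∧ ∀ r, |g r| ≤ κ * c r := by
  obtain ⟨C, hC⟩ := (isCompact_Icc (a := x) (b := y)).exists_bound_of_continuousOn hg.continuousOn
  refine ⟨max C 0 / m, by positivity, fun r => ?_⟩
  by_cases k : r ∈ Icc x y
  · refine ((hC r k).trans (le_max_left C 0)).trans ?_
    rw [div_mul_eq_mul_div, le_div_iff₀ m0]
    exact mul_le_mul_of_nonneg_left (hm r k) (le_max_right _ _)
  · rw [g0 r k, abs_zero]
    exact mul_nonneg (by positivity) (c0 r)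

namespace Bx
variable (h : Bx Φ e r0 rb F)
include h

theorem K (hc : Cs r0 rb c) : Φ.tm e * Φ.rad c ∈ Φ.B.K := by
  obtain ⟨ta, tb, k, k'⟩ := h.box
  exact h.is.memK h.sm hc.sm k k' hc.out

theorem re (hc : Cs r0 rb c) : Φ.B.Re (Φ.tm e * Φ.rad c) := (h.is.re_tm h.sm).mul (h.is.re_rad hc.sm)

theorem val (hc : Cs r0 rb c) (x : Φ.B.Pt) :
    Φ.B.val x (Φ.tm e * Φ.rad c) = e (Φ.pr x).1 * c (Φ.pr x).2 := by
  have := h.is.val_w h.sm hc.sm x 1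
  rwa [mul_one, val_one, mul_one] at this

theorem le3 (hc : Cs r0 rb c) (h1 : Cs r0 rb c1) (h2 : Cs r0 rb c2) (h3 : Cs r0 rb c3)
    {G G1 G2 G3 : A} {α β γ : ℝ} (k : ∀ x, (Φ.pr x).2 ∈ Icc r0 rb →
      c (Φ.pr x).2 * Φ.B.val x G ≤ α * (c1 (Φ.pr x).2 * Φ.B.val x G1) +
        β * (c2 (Φ.pr x).2 * Φ.B.val x G2) + γ * (c3 (Φ.pr x).2 * Φ.B.val x G3)) :
    Jw Φ e c G ≤ α * Jw Φ e c1 G1 + β * Jw Φ e c2 G2 + γ * Jw Φ e c3 G3 := by
  have B := h.is.B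
  have m := fun {c} (hc : Cs r0 rb c) (t : ℝ) (G : A) =>
    Φ.B.K.mul_mem_left (rl A t) (Φ.B.K.mul_mem_right G (h.K hc))
  rw [Jw, Jw, Jw, Jw, ← J_rl, ← J_rl, ← J_rl, ← J_add, ← J_add]
  refine B.J_le (Φ.B.K.mul_mem_right _ (h.K hc))
    (Φ.B.K.add_mem (Φ.B.K.add_mem (m h1 _ _) (m h2 _ _)) (m h3 _ _)) fun x => ?_
  rw [val_add, val_add, B.val_mul (B.re_rl _), B.val_mul (B.re_rl _), B.val_mul (B.re_rl _),
    B.val_rl, B.val_rl, B.val_rl, h.is.val_w h.sm hc.sm, h.is.val_w h.sm h1.sm,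
    h.is.val_w h.sm h2.sm, h.is.val_w h.sm h3.sm]
  by_cases z : (Φ.pr x).2 ∈ Icc r0 rb
  · linarith [mul_le_mul_of_nonneg_left (k x z) (h.pos (Φ.pr x).1)]
  · rw [hc.out _ z, h1.out _ z, h2.out _ z, h3.out _ z]; simp

theorem le1 (hc : Cs r0 rb c) (h1 : Cs r0 rb c1) {G G1 : A} {α : ℝ}
    (k : ∀ x, (Φ.pr x).2 ∈ Icc r0 rb →
      c (Φ.pr x).2 * Φ.B.val x G ≤ α * (c1 (Φ.pr x).2 * Φ.B.val x G1)) :
    Jw Φ e c G ≤ α * Jw Φ e c1 G1 := by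
  simpa using h.le3 hc h1 h1 h1 (G2 := G1) (G3 := G1) (β := 0) (γ := 0) fun x z => by
    simpa using k x z

theorem nn (hc : Cs r0 rb c) (c0 : ∀ r, 0 ≤ c r) {G : A} (k : ∀ x, 0 ≤ Φ.B.val x G) :
    0 ≤ Jw Φ e c G := by
  have := h.le1 hc hc (G := -G) (G1 := G) (α := 0) fun x _ => by
    rw [val_neg]; linarith [mul_nonneg (c0 (Φ.pr x).2) (k x)]
  rw [Jw, mul_neg, J_neg] at this
  rw [Jw]; linarith

theorem yg (hc : Cs r0 rb c) (h2 : Cs r0 rb c2) (c0 : ∀ r, 0 ≤ c2 r) {κ α β : ℝ} (a0 : 0 ≤ α)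
    (b0 : 0 ≤ β) (k : ∀ r, |c r| ≤ κ * c2 r) (hk : κ ^ 2 ≤ 4 * (α * β)) (f g : A) :
    |Φ.B.bil (Φ.tm e * Φ.rad c) f g| ≤ α * Jw Φ e c2 (Φ.sq f) + β * Jw Φ e c2 (Φ.sq g) := by
  have B := h.is.B
  have w : Φ.B.Wt (Φ.tm e * Φ.rad c2) :=
    ⟨h.K h2, h.re h2, fun x => by rw [h.val h2]; exact mul_nonneg (h.pos _) (c0 _)⟩
  have := B.young (h.K hc) (B.wt_rl w a0) (B.wt_rl w b0) f g fun x => by
    rw [B.md_re (h.re hc), B.val_mul (B.re_rl _), B.val_mul (B.re_rl _), B.val_rl, B.val_rl,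
      h.val hc, h.val h2, abs_mul, abs_of_nonneg (h.pos _)]
    have a1 := pow_le_pow_left₀ (mul_nonneg (h.pos _) (abs_nonneg _))
      (mul_le_mul_of_nonneg_left (k (Φ.pr x).2) (h.pos (Φ.pr x).1)) 2
    have a2 := mul_le_mul_of_nonneg_right hk (sq_nonneg (e (Φ.pr x).1 * c2 (Φ.pr x).2))
    linarith
  rwa [nsq_rl_w, nsq_rl_w] at this

theorem skZ : Φ.B.Skew (Zd Φ) :=
  h.is.skR.add (h.is.skT.smul (h.is.re_rad h.is.sf) (h.is.T_rad h.is.sf))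

omit h in
theorem Z_ap (v : A) : Zd Φ v = Φ.R v + Φ.rad Φ.f * Φ.T v := by
  rw [Zd, Derivation.add_apply, Derivation.smul_apply, smul_eq_mul]

theorem Z_w (hc : Cs r0 rb c) : Zd Φ (Φ.tm e * Φ.rad c) = Φ.tm e * Φ.rad (deriv c) := by
  rw [Z_ap, D_mul, D_mul, h.is.R_rad hc.sm, h.is.R_tm h.sm, h.is.T_rad hc.sm, h.is.T_tm h.sm]
  ring

/-- One integration by parts. -/
theorem ibp {D : Der A} (hD : Φ.B.Skew D) (hc : Cs r0 rb c) (h1 : Cs r0 rb c1) (h2 : Cs r0 rb c2)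
    (c0 : ∀ r, 0 ≤ c2 r) (hw : D (Φ.tm e * Φ.rad c) = Φ.tm e * Φ.rad c1) {κ δ : ℝ} (δ0 : 0 < δ)
    (k : ∀ r, |c r| ≤ κ * c2 r) (k1 : ∀ r, |c1 r| ≤ κ * c2 r) (v : A) :
    Jw Φ e c (Φ.sq (D v)) ≤ δ * (Jw Φ e c2 (Φ.sq (D (D v))) + Jw Φ e c2 (Φ.sq (D v))) +
      κ ^ 2 / δ * Jw Φ e c2 (Φ.sq v) := by
  have a1 := hD.move (h.K hc) v (D v)
  have hk : κ ^ 2 ≤ 4 * (κ ^ 2 / (2 * δ) * δ) := by
    rw [show κ ^ 2 / (2 * δ) * δ = κ ^ 2 / 2 by field_simp]; nlinarith [sq_nonneg κ]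
  have a2 := h.yg hc h2 c0 (by positivity) δ0.le k hk v (D (D v))
  have a3 := h.yg h1 h2 c0 (by positivity) δ0.le k1 hk v (D v)
  rw [hw] at a1
  have a4 : Jw Φ e c (Φ.sq (D v)) = Φ.B.bil (Φ.tm e * Φ.rad c) (D v) (D v) := rfl
  rw [a4, a1, show κ ^ 2 / δ = 2 * (κ ^ 2 / (2 * δ)) by field_simp]
  linarith [(abs_le.1 a2).1, (abs_le.1 a3).1]

end Bx

/-- The derivative along the slices. -/
theorem stepZ (hch : Inn r0 ch) (hb : r0 + 3 ≤ b) {δ : ℝ} (δ0 : 0 < δ) : ∃ C, 0 ≤ C ∧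
    ∀ (A : Type) [CommRing A] [Algebra ℂ A] (Φ : Fld A) e rb F, Bx Φ e r0 rb F → b + 2 ≤ rb → ∀ v,
    Jw Φ e (Wb ch b) (Φ.sq (Zd Φ v)) ≤ δ * (Jw Φ e (Wb ch (b + 1)) (Φ.sq (Zd Φ (Zd Φ v))) +
      Jw Φ e (Wb ch (b + 1)) (Φ.sq (Zd Φ v))) + C * Jw Φ e (Wb ch (b + 1)) (Φ.sq v) := by
  obtain ⟨η, η0, η1, η2⟩ : ∃ η : ℝ, 0 < η ∧ η ≤ 1 ∧ 36 * η ^ 2 ≤ δ / 2 :=
    ⟨min 1 (δ / 72), by positivity, min_le_left _ _, by
      nlinarith [min_le_left 1 (δ / 72), min_le_right 1 (δ / 72),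
        (by positivity : 0 < min 1 (δ / 72))]⟩
  obtain ⟨ζ, hζ⟩ : ∃ ζ, ζ = dn (r0 + 2 * η) (r0 + 3 * η) := ⟨_, rfl⟩
  obtain ⟨c, hc⟩ : ∃ c : ℝ → ℝ, c = fun r => ch r * (up (r0 + η) (r0 + 2 * η) r * dn b (b + 1) r) :=
    ⟨_, rfl⟩
  have z1 : ∀ r, r ≤ r0 + 2 * η → ζ r = 1 := fun r k => hζ ▸ dn_one (by linarith) k
  have z0 : ∀ r, r0 + 3 * η ≤ r → ζ r = 0 := fun r k => hζ ▸ dn_zero (by linarith) k
  have zs : ContDiff ℝ ∞ ζ := hζ ▸ dn_sm _ _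
  have zn : ∀ r, 0 ≤ ζ r ∧ ζ r ≤ 1 := fun r => hζ ▸ ⟨dn_nonneg .., dn_le ..⟩
  have cs : ContDiff ℝ ∞ c := hc ▸ hch.sm.mul ((up_sm _ _).mul (dn_sm _ _))
  have cn : ∀ r, 0 ≤ c r := fun r => hc ▸ mul_nonneg (hch.nn r)
    (mul_nonneg (up_nonneg ..) (dn_nonneg ..))
  have m0 := hch.pos (r0 + η) (by linarith)
  obtain ⟨κ1, k1, hk1⟩ := dom (g := fun r => (r - r0) * (ch r * deriv ζ r)) (c := c)
    (x := r0 + 2 * η) (y := r0 + 3 * η) ((continuous_id.sub continuous_const).mul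
      (hch.sm.continuous.mul (Fld.sm_der zs).continuous))
    (fun r k => by rw [der_out z1 z0 r k, mul_zero, mul_zero]) cn m0 fun r k => by
      rw [hc]; simp only []
      rw [up_one (by linarith) k.1, dn_one (by linarith) (by linarith [k.2]), mul_one, mul_one]
      exact hch.mono (by linarith [k.1])
  obtain ⟨κ2, k2, hk2⟩ := dom (g := deriv c) (c := Wb ch (b + 1)) (x := r0 + η) (y := b + 1)
    (Fld.sm_der cs).continuous (der_out (p := 0) (q := 0)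
      (fun r k => by rw [hc]; simp only []; rw [up_zero (by linarith) k, zero_mul, mul_zero])
      fun r k => by rw [hc]; simp only []; rw [dn_zero (by linarith) k, mul_zero, mul_zero])
    (hch.wnn _) m0 fun r k => by rw [Inn.weq k.2]; exact hch.mono k.1
  refine ⟨(1 + 2 * κ1) * ((κ2 + 1) ^ 2 / (δ / (2 * (1 + 2 * κ1)))), by positivity,
    fun A _ _ Φ e rb F h hr v => ?_⟩
  have s1 : Cs r0 rb fun r => ch r * ζ r := hch.cs zs fun r k => z0 r (by linarith)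
  have s2 : Cs r0 rb c := hc ▸ hch.cs ((up_sm _ _).mul (dn_sm _ _)) fun r k => by
    rw [dn_zero (by linarith) (by linarith), mul_zero]
  have s3 : Cs r0 rb fun r => (r - r0) * (ch r * ζ r) :=
    ⟨(contDiff_id.sub contDiff_const).mul s1.sm, fun r k => by rw [s1.out r k, mul_zero]⟩
  have s4 := hch.wcs (b := b + 1) (rb := rb) (by linarith)
  have n1 : ∀ r, 0 ≤ ch r * ζ r := fun r => mul_nonneg (hch.nn r) (zn r).1
  have cW : ∀ r, c r ≤ Wb ch (b + 1) r := fun r => by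
    refine le_trans ?_ (hch.wmono (b := b) (by linarith) r)
    rw [hc]
    exact mul_le_mul_of_nonneg_left (mul_le_of_le_one_left (dn_nonneg ..) (up_le ..)) (hch.nn r)
  have a1 := h.ibp h.skZ s2 s2.der s4 (hch.wnn _) (h.Z_w s2) (κ := κ2 + 1)
    (δ := δ / (2 * (1 + 2 * κ1))) (by positivity)
    (fun r => by rw [abs_of_nonneg (cn r)]; linarith [cW r, mul_nonneg k2 (hch.wnn (b + 1) r)])
    (fun r => by linarith [hk2 r, hch.wnn (b + 1) r]) v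
  generalize Zd Φ v = y at a1 ⊢
  have q0 : ∀ (x : Φ.B.Pt) y, 0 ≤ Φ.B.val x (Φ.sq y) := fun x y => by
    rw [h.is.val_sq]; exact sq_nonneg _
  have a2 := h.skZ.self h.is.B (h.K s3) (h.re s3) y
  rw [h.Z_w s3] at a2
  have a3 := h.yg s3 s1 n1 (κ := 3 * η) (α := 9 * η ^ 2) (β := 1 / 4) (by positivity) (by norm_num)
    (fun r => by
      rw [abs_mul, abs_of_nonneg (n1 r)]
      rcases le_or_gt r r0 with k | k
      · rw [hch.zero r k]; simp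
      rcases le_or_gt (r0 + 3 * η) r with k' | k'
      · rw [z0 r k']; simp
      exact mul_le_mul_of_nonneg_right (abs_le.2 ⟨by linarith, by linarith⟩) (n1 r))
    (by linarith) (Zd Φ y) y
  have a4 := h.le3 s1 s3.der s2 s2 (G := Φ.sq y) (G1 := Φ.sq y) (G2 := Φ.sq y) (G3 := Φ.sq y)
    (α := 1) (β := κ1) (γ := 0) fun x k => by
      have d1 := (((hasDerivAt_id (Φ.pr x).2).sub_const r0).mul
        ((hch.sm.differentiable (by simp) _).hasDerivAt.mul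
          (zs.differentiable (by simp) _).hasDerivAt)).deriv
      have d2 := mul_nonneg (sub_nonneg.2 k.1)
        (mul_nonneg (hch.mono.deriv_nonneg (x := (Φ.pr x).2)) (zn (Φ.pr x).2).1)
      have d3 : ch (Φ.pr x).2 * ζ (Φ.pr x).2 ≤
          deriv (fun r => (r - r0) * (ch r * ζ r)) (Φ.pr x).2 + κ1 * c (Φ.pr x).2 := by
        refine le_trans ?_ (add_le_add_left d1.ge _)
        simp only [id, Pi.mul_apply]
        linarith [(abs_le.1 (hk1 (Φ.pr x).2)).1]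
      linarith [mul_le_mul_of_nonneg_right d3 (q0 x y)]
  have a5 := h.le3 (hch.wcs (b := b) (by linarith)) s1 s2 s2 (G := Φ.sq y) (G1 := Φ.sq y)
    (G2 := Φ.sq y) (G3 := Φ.sq y) (α := 1) (β := 1) (γ := 0) fun x _ => by
      have d1 : Wb ch b (Φ.pr x).2 ≤ ch (Φ.pr x).2 * ζ (Φ.pr x).2 + c (Φ.pr x).2 := by
        rcases le_total (Φ.pr x).2 (r0 + 2 * η) with k | k
        · rw [z1 _ k, Inn.weq (by linarith)]; linarith [cn (Φ.pr x).2]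
        · rw [hc]; simp only []
          rw [up_one (by linarith) k, one_mul]
          exact le_add_of_nonneg_left (n1 _)
      linarith [mul_le_mul_of_nonneg_right d1 (q0 x y)]
  have a6 := h.le1 s1 s4 (G := Φ.sq (Zd Φ y)) (G1 := Φ.sq (Zd Φ y)) (α := 1) fun x _ => by
    rw [one_mul]
    refine mul_le_mul_of_nonneg_right ?_ (q0 x _)
    rcases le_total (Φ.pr x).2 (b + 1) with k | k
    · rw [Inn.weq k]; exact mul_le_of_le_one_right (hch.nn _) (zn _).2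
    · rw [z0 _ (by linarith), mul_zero]; exact hch.wnn _ _
  have a7 : Φ.B.nsq (Φ.tm e * Φ.rad (deriv fun r => (r - r0) * (ch r * ζ r))) y =
    Jw Φ e (deriv fun r => (r - r0) * (ch r * ζ r)) (Φ.sq y) := rfl
  have b1 := mul_le_mul_of_nonneg_left a1 (by positivity : 0 ≤ 1 + 2 * κ1)
  have b2 := h.nn s4 (hch.wnn _) fun x => q0 x (Zd Φ y)
  have b3 := h.nn s4 (hch.wnn _) fun x => q0 x y
  have b4 := mul_le_mul_of_nonneg_left a6 (by positivity : 0 ≤ 36 * η ^ 2)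
  have b5 := mul_le_mul_of_nonneg_right η2 b2
  have b6 : (1 + 2 * κ1) * (δ / (2 * (1 + 2 * κ1))) = δ / 2 := by field_simp
  rw [mul_add, ← mul_assoc, b6, ← mul_assoc] at b1
  linarith [(abs_le.1 a3).1, mul_nonneg δ0.le b3]

end Vale.Agent.P354YH
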