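import Vale.Agent.P354YH.Defs

/-!
Summation by parts with the weights (1 + j)^q.
-/

open Finset Real

noncomputable section

namespace Vale.Agent.P354YH

variable {p q Q : ℝ} {j k : ℕ}

theorem one_le_b (j : ℕ) : (1 : ℝ) ≤ 1 + j := le_add_of_nonneg_right (Nat.cast_nonneg j)

theorem wt_pos (q : ℝ) (j : ℕ) : 0 < wt q j := rpow_pos_of_pos (by positivity) q

theorem wt_zero (q : ℝ) : wt q 0 = 1 := by simp [wt]

theorem wt_q0 (j : ℕ) : wt 0 j = 1 := by simp [wt]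

theorem wt_add (p q : ℝ) (j : ℕ) : wt (p + q) j = wt p j * wt q j := rpow_add (by positivity) p q

theorem wt_le_wt (h : p ≤ q) (j : ℕ) : wt p j ≤ wt q j :=
  rpow_le_rpow_of_exponent_le (one_le_b j) h

theorem wt_mono (h : 0 ≤ q) (hj : j ≤ k) : wt q j ≤ wt q k :=
  rpow_le_rpow (by positivity) (by have : (j : ℝ) ≤ k := by exact_mod_cast hj
                                   linarith) h

theorem wt_anti (h : q ≤ 0) (j : ℕ) : wt q (j + 1) ≤ wt q j :=
  rpow_le_rpow_of_nonpos (by positivity) (by push_cast; linarith) h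

theorem wt_one (q : ℝ) (j : ℕ) : wt q j = (1 + j) * wt (q - 1) j := by
  have := wt_add 1 (q - 1) j
  rw [add_sub_cancel] at this
  rw [this, wt, rpow_one]

theorem rpow_cmp {x y c : ℝ} (h0 : 0 ≤ q) (h3 : q ≤ 3) (hx : 0 ≤ x) (hy : 0 ≤ y) (hc : 1 ≤ c)
    (h : x ≤ c * y) : x ^ q ≤ c ^ 3 * y ^ q := by
  refine (rpow_le_rpow hx h h0).trans ?_
  rw [mul_rpow (by linarith) hy]
  refine mul_le_mul_of_nonneg_right ?_ (rpow_nonneg hy q)
  have := rpow_le_rpow_of_exponent_le hc h3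
  rwa [show (3 : ℝ) = ((3 : ℕ) : ℝ) by norm_num, rpow_natCast] at this

theorem wt_succ (h0 : 0 ≤ q) (h3 : q ≤ 3) (j : ℕ) : wt q (j + 1) ≤ 8 * wt q j := by
  have := rpow_cmp (x := 1 + ((j + 1 : ℕ) : ℝ)) (y := 1 + j) (c := 2) h0 h3 (by positivity)
    (by positivity) one_le_two (by have := one_le_b j; push_cast; linarith)
  norm_num at this ⊢
  simpa [wt] using this

/-- The weight of the term which is lost in the summation by parts. -/
def lv (q : ℝ) (j : ℕ) : ℝ := if q = 0 then 0 else wt (q - 1) j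

theorem lv_nn (q : ℝ) (j : ℕ) : 0 ≤ lv q j := by
  unfold lv; split_ifs
  · exact le_rfl
  · exact (wt_pos _ _).le

theorem lv_le (q : ℝ) (j : ℕ) : lv q j ≤ wt (q - 1) j := by
  unfold lv; split_ifs
  · exact (wt_pos _ _).le
  · exact le_rfl

/-- The increments of the weight. -/
def dw (q : ℝ) : ℕ → ℝ
  | 0 => 1
  | j + 1 => wt q (j + 1) - wt q j

theorem dw_nn (h : 0 ≤ q) : ∀ j, 0 ≤ dw q j
  | 0 => zero_le_one
  | j + 1 => sub_nonneg.mpr (wt_mono h (Nat.le_succ j))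

theorem dw_sum (q : ℝ) (k : ℕ) : ∑ j ∈ range (k + 1), dw q j = wt q k := by
  induction k with
  | zero => simp [dw, wt_zero]
  | succ n ih => rw [sum_range_succ, ih, dw]; ring

theorem dw_le (h3 : q ≤ 3) (j : ℕ) : dw q (j + 1) ≤ 3 * lv q (j + 1) := by
  rw [dw, lv]
  split_ifs with hq
  · simp [hq, wt_q0]
  have a1 := one_le_b j
  obtain ⟨x, hx⟩ : ∃ x : ℝ, x = 1 + ((j + 1 : ℕ) : ℝ) := ⟨_, rfl⟩
  have x2 : 2 ≤ x := by rw [hx]; push_cast; linarith
  have e1 : (1 + j : ℝ) = x * (1 - 1 / x) := by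
    rw [mul_sub, mul_one_div_cancel (by linarith), hx]; push_cast; ring
  have t0 : 0 < 1 / x := by positivity
  have t1 : 1 / x ≤ 1 / 2 := one_div_le_one_div_of_le two_pos x2
  have a2 : (1 - 1 / x) ^ (3 : ℝ) ≤ (1 - 1 / x) ^ q :=
    rpow_le_rpow_of_exponent_ge (by linarith) (by linarith) h3
  rw [show (3 : ℝ) = ((3 : ℕ) : ℝ) by norm_num, rpow_natCast] at a2
  have a3 : 1 - 3 * (1 / x) ≤ (1 - 1 / x) ^ 3 := by nlinarith [mul_pos t0 t0]
  have a4 : wt q j = wt q (j + 1) * (1 - 1 / x) ^ q := by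
    rw [wt, wt, ← hx, e1, mul_rpow (by linarith) (by linarith)]
  have a5 := wt_one q (j + 1)
  rw [← hx] at a5
  have a6 := mul_le_mul_of_nonneg_left (a3.trans a2) (wt_pos q (j + 1)).le
  have a7 : wt q (j + 1) * (1 / x) = wt (q - 1) (j + 1) := by
    rw [a5]; field_simp
  linarith

theorem abel_up (q : ℝ) (f : ℕ → ℝ) (k : ℕ) :
    ∑ m ∈ range (k + 1), dw q m * ∑ j ∈ Icc m k, f j = sm q k f := by
  induction k with
  | zero => simp [dw, sm, wt_zero]
  | succ n ih =>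
    have a1 : ∑ m ∈ range (n + 1), dw q m * ∑ j ∈ Icc m (n + 1), f j =
        ∑ m ∈ range (n + 1), dw q m * ∑ j ∈ Icc m n, f j +
          (∑ m ∈ range (n + 1), dw q m) * f (n + 1) := by
      rw [sum_mul, ← sum_add_distrib]
      refine sum_congr rfl fun m hm => ?_
      rw [sum_Icc_succ_top (by have := mem_range.mp hm; omega)]
      ring
    rw [sum_range_succ, a1, ih, dw_sum, Icc_self, sum_singleton, dw, sm, sm,
      sum_range_succ _ (n + 1)]
    ring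

theorem sm_add (q : ℝ) (k : ℕ) (f g : ℕ → ℝ) :
    sm q k (fun j => f j + g j) = sm q k f + sm q k g := by
  simp only [sm, mul_add, sum_add_distrib]

theorem sm_mul (q : ℝ) (k : ℕ) (c : ℝ) (f : ℕ → ℝ) : sm q k (fun j => c * f j) = c * sm q k f := by
  simp only [sm, mul_sum]
  exact sum_congr rfl fun j _ => by ring

theorem sm_mono (q : ℝ) (k : ℕ) {f g : ℕ → ℝ} (h : ∀ j, f j ≤ g j) : sm q k f ≤ sm q k g :=
  sum_le_sum fun j _ => mul_le_mul_of_nonneg_left (h j) (wt_pos q j).le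

theorem sm_nn (q : ℝ) (k : ℕ) {f : ℕ → ℝ} (h : ∀ j, 0 ≤ f j) : 0 ≤ sm q k f :=
  sum_nonneg fun j _ => mul_nonneg (wt_pos q j).le (h j)

theorem le_sm (q : ℝ) {f : ℕ → ℝ} (h : ∀ j, 0 ≤ f j) (hj : j ≤ k) : wt q j * f j ≤ sm q k f :=
  single_le_sum (f := fun j => wt q j * f j) (fun j _ => mul_nonneg (wt_pos q j).le (h j))
    (mem_range.mpr (by omega))

/-- From the estimates on all intervals to the weighted estimate. -/
theorem up (h0 : 0 ≤ q) (h3 : q ≤ 3) {Y C C0 : ℝ} {b e r g : ℕ → ℝ} (hC : 0 ≤ C)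
    (he : ∀ j, 0 ≤ e j) (h : ∀ m ≤ k, Y + ∑ j ∈ Icc m k, b j ≤
      C * (e m + ∑ j ∈ Icc m k, r j) + C0 * ∑ j ∈ Icc m k, g j) :
    wt q k * Y + sm q k b ≤
      C * (e 0 + 3 * ∑ j ∈ range (k + 1), lv q j * e j + sm q k r) + C0 * sm q k g := by
  have a1 := sum_le_sum (s := range (k + 1)) fun m hm => mul_le_mul_of_nonneg_left
    (h m (by have := mem_range.mp hm; omega)) (dw_nn h0 m)
  have a2 : ∑ m ∈ range (k + 1), dw q m * e m ≤ e 0 + 3 * ∑ j ∈ range (k + 1), lv q j * e j := by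
    rw [sum_range_succ', sum_range_succ' (fun j => lv q j * e j)]
    have b1 : ∑ m ∈ range k, dw q (m + 1) * e (m + 1) ≤
        3 * ∑ m ∈ range k, lv q (m + 1) * e (m + 1) :=
      P354XL.sum_cmp (g := fun m => e (m + 1)) (fun m => he _) fun m _ => dw_le h3 m
    have b2 := mul_nonneg (lv_nn q 0) (he 0)
    rw [show dw q 0 = 1 from rfl]
    linarith
  have a3 : ∑ m ∈ range (k + 1), dw q m * (Y + ∑ j ∈ Icc m k, b j) = wt q k * Y + sm q k b := by
    simp only [mul_add, sum_add_distrib, abel_up, ← sum_mul, dw_sum]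
  have a4 : ∑ m ∈ range (k + 1), dw q m *
      (C * (e m + ∑ j ∈ Icc m k, r j) + C0 * ∑ j ∈ Icc m k, g j) =
      C * (∑ m ∈ range (k + 1), dw q m * e m + sm q k r) + C0 * sm q k g := by
    rw [← abel_up, ← abel_up, ← sum_add_distrib, mul_sum, mul_sum, ← sum_add_distrib]
    exact sum_congr rfl fun m _ => by ring
  have a5 := mul_le_mul_of_nonneg_left a2 hC
  rw [a3, a4] at a1
  linarith

theorem down1 (hq : q ≤ Q) {f : ℕ → ℝ} {D : ℝ} (h : ∀ m ≤ k, sm Q m f ≤ D) : sm q k f ≤ D := by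
  have a1 := P354XL.abel (wt (q - Q)) (fun j => wt Q j * f j) k
  have a2 : ∑ j ∈ range (k + 1), wt (q - Q) j * (wt Q j * f j) = sm q k f :=
    sum_congr rfl fun j _ => by rw [← mul_assoc, ← wt_add, sub_add_cancel]
  have a3 := sum_le_sum (s := range (k + 1)) fun m hm => mul_le_mul_of_nonneg_left
    (h m (by have := mem_range.mp hm; omega)) (sub_nonneg.mpr (wt_anti (sub_nonpos.mpr hq) m))
  have a4 := mul_le_mul_of_nonneg_left (h k le_rfl) (wt_pos (q - Q) (k + 1)).le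
  rw [← sum_mul, sum_range_sub' (wt (q - Q)) (k + 1), wt_zero] at a3
  rw [← a2, ← a1]
  unfold sm at a3 a4
  linarith

/-- From the weight Q to the smaller weights. -/
theorem down (hq : q ≤ Q) {a b c : ℕ → ℝ} {θ C D : ℝ}
    (h : ∀ m ≤ k, sm Q m a ≤ θ * sm Q m b + C * (D + sm Q m c)) :
    sm q k a ≤ θ * sm q k b + C * (D + sm q k c) := by
  have := down1 (k := k) hq (f := fun j => a j + ((-θ) * b j + (-C) * c j)) (D := C * D)
    fun m hm => by
      have := h m hm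
      rw [sm_add, sm_add, sm_mul, sm_mul]
      linarith
  rw [sm_add, sm_add, sm_mul, sm_mul] at this
  linarith

theorem wt_sum {s : ℝ} (hs : 1 < s) : ∃ A, 0 ≤ A ∧ ∀ k, ∑ j ∈ range k, wt (-s) j ≤ A := by
  have a1 : Summable fun n : ℕ => ((n + 1 : ℕ) : ℝ) ^ (-s) :=
    (summable_nat_add_iff 1).mpr (summable_nat_rpow.mpr (by linarith))
  have a2 : Summable (wt (-s)) := a1.congr fun n => by rw [wt]; push_cast; rw [add_comm]
  exact ⟨_, tsum_nonneg fun n => (wt_pos _ n).le,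
    fun k => a2.sum_le_tsum _ fun n _ => (wt_pos _ n).le⟩

/-- Gluing of the estimates on dyadic intervals. -/
theorem dyad {K : ℕ} {I G X L : ℕ → ℝ} (G0 : ∀ j, 0 ≤ G j) (X0 : ∀ j, 0 ≤ X j) (L0 : ∀ j, 0 ≤ L j)
    (hL : ∀ j l : ℕ, 1 ≤ l → 1 + j ≤ 3 * l → 1 / (l : ℝ) ^ 2 * X j ≤ L j)
    (h : ∀ a b l1 l2 : ℕ, 1 ≤ l1 → 1 ≤ l2 → 2 * l1 ≤ a + 1 → a ≤ b → b ≤ 4 * a → l2 ≤ b →
      b + l2 ≤ K + 1 → ∑ j ∈ Ico a b, I j ≤ ∑ j ∈ Ico (a - l1) (b + l2), G j +
        1 / (l1 : ℝ) ^ 2 * ∑ j ∈ Ico (a - l1) a, X j + 1 / (l2 : ℝ) ^ 2 * ∑ j ∈ Ico b (b + l2), X j)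
    (a b l1 l2 : ℕ) (h1 : 1 ≤ l1) (h2 : 1 ≤ l2) (h3 : l1 ≤ a) (h4 : a ≤ b) (h5 : b + l2 ≤ K + 1) :
    ∑ j ∈ Ico a b, I j ≤ 3 * ∑ j ∈ Ico (a - l1) (b + l2), (G j + L j) +
      1 / (l1 : ℝ) ^ 2 * ∑ j ∈ Ico (a - l1) a, X j +
      1 / (l2 : ℝ) ^ 2 * ∑ j ∈ Ico b (b + l2), X j := by
  have H0 : ∀ j, 0 ≤ G j + L j := fun j => add_nonneg (G0 j) (L0 j)
  have S0 : ∀ s : Finset ℕ, 0 ≤ ∑ j ∈ s, (G j + L j) := fun s => sum_nonneg fun j _ => H0 j
  have hGL : ∀ s : Finset ℕ, ∑ j ∈ s, G j ≤ ∑ j ∈ s, (G j + L j) := fun s =>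
    sum_le_sum fun j _ => le_add_of_nonneg_right (L0 j)
  have ramp : ∀ x y l : ℕ, 1 ≤ l → y ≤ 3 * l →
      ∑ j ∈ Ico x y, G j + 1 / (l : ℝ) ^ 2 * ∑ j ∈ Ico x y, X j ≤ ∑ j ∈ Ico x y, (G j + L j) := by
    intro x y l hl hy
    rw [mul_sum, ← sum_add_distrib]
    exact sum_le_sum fun j hj => add_le_add_right (hL j l hl (by rw [mem_Ico] at hj; omega)) _
  have cut : ∀ (f : ℕ → ℝ) (x y z : ℕ), x ≤ y → y ≤ z →
      ∑ j ∈ Ico x z, f j = ∑ j ∈ Ico x y, f j + ∑ j ∈ Ico y z, f j :=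
    fun f x y z u v => (sum_Ico_consecutive f u v).symm
  have main : ∀ m2 : ℕ, 1 ≤ m2 → m2 ≤ b → b + m2 ≤ K + 1 → ∀ m a m1 : ℕ, b ≤ a + m → 1 ≤ m1 →
      2 * m1 ≤ a + 1 → a ≤ b → ∑ j ∈ Ico a b, I j ≤
      (∑ j ∈ Ico (a - m1) a, G j + 1 / (m1 : ℝ) ^ 2 * ∑ j ∈ Ico (a - m1) a, X j) +
      2 * ∑ j ∈ Ico a b, (G j + L j) + ∑ j ∈ Ico (2 * a) b, (G j + L j) +
      (∑ j ∈ Ico b (b + m2), G j + 1 / (m2 : ℝ) ^ 2 * ∑ j ∈ Ico b (b + m2), X j) := by
    intro m2 u1 u2 u3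
    have base : ∀ a m1 : ℕ, b ≤ 4 * a → 1 ≤ m1 → 2 * m1 ≤ a + 1 → a ≤ b → ∑ j ∈ Ico a b, I j ≤
        (∑ j ∈ Ico (a - m1) a, G j + 1 / (m1 : ℝ) ^ 2 * ∑ j ∈ Ico (a - m1) a, X j) +
        2 * ∑ j ∈ Ico a b, (G j + L j) + ∑ j ∈ Ico (2 * a) b, (G j + L j) +
        (∑ j ∈ Ico b (b + m2), G j + 1 / (m2 : ℝ) ^ 2 * ∑ j ∈ Ico b (b + m2), X j) := by
      intro a m1 v0 v1 v2 v3
      have c1 := h a b m1 m2 v1 u1 v2 v3 v0 u2 u3
      rw [cut G (a - m1) a (b + m2) (by omega) (by omega), cut G a b (b + m2) v3 (by omega)] at c1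
      linarith [S0 (Ico a b), S0 (Ico (2 * a) b), hGL (Ico a b)]
    intro m
    induction m with
    | zero => exact fun a m1 v0 v1 v2 v3 => base a m1 (by omega) v1 v2 v3
    | succ m ih =>
      intro a m1 v0 v1 v2 v3
      rcases le_or_gt b (4 * a) with w | w
      · exact base a m1 w v1 v2 v3
      have c1 := h a (2 * a) m1 a v1 (by omega) v2 (by omega) (by omega) (by omega) (by omega)
      have c2 := ih (2 * a) a (by omega) (by omega) (by omega) (by omega)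
      rw [cut G (a - m1) a (2 * a + a) (by omega) (by omega),
        cut G a (2 * a) (2 * a + a) (by omega) (by omega)] at c1
      rw [show 2 * a - a = a by omega] at c2
      have c3 := ramp (2 * a) (2 * a + a) a (by omega) (by omega)
      have c4 := ramp a (2 * a) a (by omega) (by omega)
      have c5 := cut (fun j => G j + L j) a (2 * a) b (by omega) (by omega)
      have c6 := cut (fun j => G j + L j) (2 * a) (2 * a + a) b (by omega) (by omega)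
      have c7 := cut (fun j => G j + L j) (2 * a + a) (2 * (2 * a)) b (by omega) (by omega)
      rw [cut I a (2 * a) b (by omega) (by omega)]
      linarith [S0 (Ico (2 * a + a) (2 * (2 * a))), hGL (Ico a (2 * a))]
  have XS : ∀ (s : Finset ℕ) (l : ℕ), 0 ≤ 1 / (l : ℝ) ^ 2 * ∑ j ∈ s, X j := fun s l =>
    mul_nonneg (by positivity) (sum_nonneg fun j _ => X0 j)
  obtain ⟨m1, v1, v2, v3⟩ : ∃ m1 : ℕ, 1 ≤ m1 ∧ 2 * m1 ≤ a + 1 ∧
      ∑ j ∈ Ico (a - m1) a, G j + 1 / (m1 : ℝ) ^ 2 * ∑ j ∈ Ico (a - m1) a, X j ≤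
      ∑ j ∈ Ico (a - l1) a, (G j + L j) + 1 / (l1 : ℝ) ^ 2 * ∑ j ∈ Ico (a - l1) a, X j := by
    rcases le_or_gt (2 * l1) (a + 1) with w | w
    · exact ⟨l1, h1, w, add_le_add_left (hGL _) _⟩
    refine ⟨(a + 1) / 2, by omega, by omega, (ramp _ _ _ (by omega) (by omega)).trans ?_⟩
    exact le_add_of_le_of_nonneg
      (P354XL.sub_le (Ico_subset_Ico_left (by omega)) H0) (XS _ _)
  obtain ⟨m2, u1, u2, u3, u4⟩ : ∃ m2 : ℕ, 1 ≤ m2 ∧ m2 ≤ b ∧ b + m2 ≤ K + 1 ∧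
      ∑ j ∈ Ico b (b + m2), G j + 1 / (m2 : ℝ) ^ 2 * ∑ j ∈ Ico b (b + m2), X j ≤
      ∑ j ∈ Ico b (b + l2), (G j + L j) + 1 / (l2 : ℝ) ^ 2 * ∑ j ∈ Ico b (b + l2), X j := by
    rcases le_or_gt l2 b with w | w
    · exact ⟨l2, h2, w, h5, add_le_add_left (hGL _) _⟩
    refine ⟨b, by omega, le_rfl, by omega, (ramp _ _ _ (by omega) (by omega)).trans ?_⟩
    exact le_add_of_le_of_nonneg
      (P354XL.sub_le (Ico_subset_Ico_right (by omega)) H0) (XS _ _)
  have c1 := main m2 u1 u2 u3 b a m1 (by omega) v1 v2 h4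
  have c2 := P354XL.sub_le (Ico_subset_Ico_left (b := b) (show a ≤ 2 * a by omega)) H0
  rw [cut _ (a - l1) a (b + l2) (by omega) (by omega), cut _ a b (b + l2) h4 (by omega)]
  linarith [S0 (Ico (a - l1) a), S0 (Ico b (b + l2))]

open P354XL in
theorem low_mono {K : ℕ} {e b i f e' b' f' : ℕ → ℝ} {C0 δ C2 δ' C2' : ℝ}
    (h : Low K e b i f C0 δ C2) (h1 : ∀ j, δ * b j + C2 * f j ≤ δ' * b' j + C2' * f' j)
    (h2 : ∀ j, C2 * e j ≤ C2' * e' j) : Low K e' b' i f' C0 δ' C2' := by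
  intro ε e0 e1 a c l1 l2 u1 u2 u3 u4 u5
  have key : ∀ (s : Finset ℕ) (l : ℝ), C2 / l ^ 2 * ∑ j ∈ s, exp (-(2 * ε * j)) * e j ≤
      C2' / l ^ 2 * ∑ j ∈ s, exp (-(2 * ε * j)) * e' j := by
    intro s l
    rw [mul_sum, mul_sum]
    refine sum_le_sum fun j _ => ?_
    have := mul_le_mul_of_nonneg_left (h2 j) (by positivity : 0 ≤ exp (-(2 * ε * j)) / l ^ 2)
    linarith [show C2 / l ^ 2 * (exp (-(2 * ε * j)) * e j) =
      exp (-(2 * ε * j)) / l ^ 2 * (C2 * e j) by ring,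
      show C2' / l ^ 2 * (exp (-(2 * ε * j)) * e' j) =
      exp (-(2 * ε * j)) / l ^ 2 * (C2' * e' j) by ring]
  exact (h ε e0 e1 a c l1 l2 u1 u2 u3 u4 u5).trans (add_le_add (add_le_add
    (sum_le_sum fun j _ => mul_le_mul_of_nonneg_left (h1 j) (exp_pos _).le) (key _ _)) (key _ _))

open P354XL in
/-- The estimate of low order with polynomial weights. -/
theorem low_wt (h0 : 0 ≤ q) (h3 : q ≤ 3) {K : ℕ} {e b i f : ℕ → ℝ} {C0 C2 : ℝ}
    (h : Low K e b i f C0 1 C2) (he : ∀ j, 0 ≤ e j) (hb : ∀ j, 0 ≤ b j) (hi : ∀ j, 0 ≤ i j)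
    (hf : ∀ j, 0 ≤ f j) (c2 : 0 ≤ C2) :
    Low K (fun j => wt q j * e j) (fun j => wt q j * b j) (fun j => wt q j * i j)
      (fun j => wt q j * f j + 3 * (lv q j * e j)) C0 12288 (12288 * C2) := by
  by_cases hq : q = 0
  · simp only [hq, wt_q0, one_mul, lv, if_true, zero_mul, mul_zero, add_zero]
    exact low_mono h (fun j => by nlinarith [hb j, mul_nonneg c2 (hf j)])
      fun j => by nlinarith [mul_nonneg c2 (he j)]
  intro ε e0 e1 a c l1 l2 u1 u2 u3 u4 u5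
  have W := wt_pos q
  have := dyad (K := K) (I := fun j => exp (-(2 * ε * j)) * (wt q j * i j))
    (G := fun j => 4096 * (wt q j * (exp (-(2 * ε * j)) * (1 * b j + C2 * f j))))
    (X := fun j => 4096 * C2 * (wt q j * (exp (-(2 * ε * j)) * e j)))
    (L := fun j => 4096 * C2 * (3 * lv q j * (exp (-(2 * ε * j)) * e j)))
    (fun j => by have := W j; have := hb j; have := hf j; positivity)
    (fun j => by have := W j; have := he j; positivity)
    (fun j => by have := lv_nn q j; have := he j; positivity) (fun j l v1 v2 => by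
      have a1 : (1 : ℝ) ≤ l := by exact_mod_cast v1
      have a2 : (1 : ℝ) + j ≤ 3 * l := by exact_mod_cast v2
      have a3 : 1 / (l : ℝ) ^ 2 * wt q j ≤ 3 * lv q j := by
        rw [lv, if_neg hq, wt_one q j, ← mul_assoc]
        refine mul_le_mul_of_nonneg_right ?_ (wt_pos _ _).le
        rw [one_div, inv_mul_le_iff₀ (by positivity)]
        nlinarith
      have := mul_le_mul_of_nonneg_right a3
        (by have := he j; positivity : 0 ≤ 4096 * C2 * (exp (-(2 * ε * j)) * e j))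
      linarith) (fun a c l1 l2 v1 v2 v3 v4 v5 v6 v7 => by
      have a1 := h ε e0 e1 a c l1 l2 v1 v2 (by omega) v4 v7
      obtain ⟨w, hw⟩ : ∃ w, w = wt q (a - l1) := ⟨_, rfl⟩
      have w0 : 0 < w := hw ▸ W _
      have lo : ∀ {s : Finset ℕ} {g : ℕ → ℝ}, (∀ j, 0 ≤ g j) → (∀ j ∈ s, a - l1 ≤ j) →
          w * ∑ j ∈ s, g j ≤ ∑ j ∈ s, wt q j * g j := fun {s g} g0 hs => by
        rw [mul_sum]
        exact sum_le_sum fun j hj => mul_le_mul_of_nonneg_right (hw ▸ wt_mono h0 (hs j hj)) (g0 j)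
      have a2 : ∑ j ∈ Ico a c, exp (-(2 * ε * j)) * (wt q j * i j) ≤
          4096 * w * ∑ j ∈ Ico a c, exp (-(2 * ε * j)) * i j := by
        rw [mul_sum]
        refine sum_le_sum fun j hj => ?_
        have b1 : 1 + j ≤ 16 * (1 + (a - l1)) := by rw [mem_Ico] at hj; omega
        have b2 := rpow_cmp (x := 1 + j) (y := 1 + ((a - l1 : ℕ) : ℝ)) (c := 16) h0 h3
          (by positivity) (by positivity) (by norm_num) (by exact_mod_cast b1)
        have b3 : wt q j ≤ 4096 * w := by rw [hw, wt, wt]; linarith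
        have := mul_le_mul_of_nonneg_right b3 (mul_nonneg (exp_pos (-(2 * ε * j))).le (hi j))
        linarith
      have E : ∀ j : ℕ, 0 ≤ exp (-(2 * ε * j)) * e j := fun j => mul_nonneg (exp_pos _).le (he j)
      have a3 := lo (s := Ico (a - l1) (c + l2))
        (g := fun j => exp (-(2 * ε * j)) * (1 * b j + C2 * f j))
        (fun j => by have := hb j; have := hf j; positivity) fun j hj => (mem_Ico.mp hj).1
      have a4 := mul_le_mul_of_nonneg_left (lo (s := Ico (a - l1) a) E fun j hj => (mem_Ico.mp hj).1)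
        (by positivity : 0 ≤ C2 / (l1 : ℝ) ^ 2)
      have a5 := mul_le_mul_of_nonneg_left (lo (s := Ico c (c + l2)) E fun j hj => by
        have := (mem_Ico.mp hj).1; omega) (by positivity : 0 ≤ C2 / (l2 : ℝ) ^ 2)
      have a6 := mul_le_mul_of_nonneg_left a1 w0.le
      simp only [← mul_sum]
      rw [div_eq_mul_one_div C2, div_eq_mul_one_div C2] at a6
      rw [div_eq_mul_one_div C2] at a4 a5
      linarith) a c l1 l2 u1 u2 u3 u4 u5
  refine this.trans (add_le_add (add_le_add (le_of_eq ?_) ?_) ?_)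
  · rw [mul_sum]
    exact sum_congr rfl fun j _ => by ring
  all_goals
    rw [mul_sum, mul_sum]
    refine sum_le_sum fun j _ => ?_
    have := W j
    have := he j
    rw [div_eq_mul_one_div (12288 * C2), ← sub_nonneg]
    ring_nf
    positivity

end Vale.Agent.P354YH
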